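import Vale.Agent.P006.H845.Order
import Mathlib.NumberTheory.Harmonic.Bounds
import Mathlib.Analysis.SpecialFunctions.Pow.NNReal

/-!
P006, block ROUGH (helper845): sums over primary elements: majorisation by sums over integers,
Dirichlet reindexing, multiples, moments of the divisor function.
-/

namespace Vale.Agent.P006

open Finset

/-! ### Majorisation -/

theorem sum_mul_le_of_partial (a f : ℕ → ℝ) (C : ℝ) (M : ℕ)
    (hA : ∀ k ≤ M, ∑ n ∈ Finset.Icc 1 k, a n ≤ C * k)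
    (hf : ∀ k, 1 ≤ k → k < M → f (k + 1) ≤ f k) (hf0 : 1 ≤ M → 0 ≤ f M) :
    ∑ n ∈ Finset.Icc 1 M, a n * f n ≤ C * ∑ n ∈ Finset.Icc 1 M, f n := by
  have key : ∀ k, 1 ≤ k → k ≤ M → ∑ n ∈ Finset.Icc 1 k, a n * f n ≤
      C * ∑ n ∈ Finset.Icc 1 k, f n + f k * (∑ n ∈ Finset.Icc 1 k, a n - C * k) := by
    intro k hk
    induction k, hk using Nat.le_induction with
    | base => intro _; simp; linarith
    | succ k hk ih =>
      intro hkM
      have h1 := ih (by omega)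
      have h2 := hf k hk (by omega)
      have h3 := hA k (by omega)
      rw [sum_Icc_succ_top (by omega), sum_Icc_succ_top (by omega), sum_Icc_succ_top (by omega)]
      push_cast
      nlinarith
  by_cases hM : 1 ≤ M
  · have h1 := key M hM le_rfl
    have h2 := hA M le_rfl
    have h3 := hf0 hM
    nlinarith
  · have : M = 0 := by omega
    subst this; simp

theorem sum_PB_fiber (X : ℝ) (f : ℕ → ℝ) :
    ∑ c ∈ PB X, f (N c) =
      ∑ n ∈ Finset.Icc 1 ⌊X⌋₊, (((PB X).filter (fun c => N c = n)).card : ℝ) * f n := by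
  rw [← sum_fiberwise_of_maps_to (g := N) (t := Finset.Icc 1 ⌊X⌋₊)]
  · refine sum_congr rfl fun n _ => ?_
    rw [sum_congr rfl (g := fun _ => f n)]
    · rw [sum_const, nsmul_eq_mul]
    · intro c hc
      rw [mem_filter] at hc
      rw [hc.2]
  · intro c hc
    rw [mem_PB] at hc
    rw [Finset.mem_Icc]
    exact ⟨hc.1.one_le_N, (N_le_floor hc.1).2 hc.2⟩

theorem sum_card_fiber {X : ℝ} {k : ℕ} (hk : k ≤ ⌊X⌋₊) :
    ∑ n ∈ Finset.Icc 1 k, (((PB X).filter (fun c => N c = n)).card : ℝ) = (PB k).card := by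
  rw [← Nat.cast_sum]
  congr 1
  rw [card_eq_sum_card_fiberwise (f := N) (t := Finset.Icc 1 k) (s := PB (k : ℝ))]
  · refine sum_congr rfl fun n hn => ?_
    rw [Finset.mem_Icc] at hn
    congr 1
    ext c
    rw [mem_filter, mem_filter, mem_PB, mem_PB]
    constructor
    · rintro ⟨⟨h1, _⟩, h3⟩
      exact ⟨⟨h1, by exact_mod_cast (h3 ▸ hn.2)⟩, h3⟩
    · rintro ⟨⟨h1, _⟩, h3⟩
      refine ⟨⟨h1, ?_⟩, h3⟩
      rw [← N_le_floor h1, h3]; omega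
  · intro c hc
    rw [mem_coe, mem_PB] at hc
    rw [mem_coe, Finset.mem_Icc]
    exact ⟨hc.1.one_le_N, by exact_mod_cast hc.2⟩

/-- `∑_{c ∈ PB X} f(N c) ≤ 4 ∑_{n ≤ X} f(n)` for antitone nonnegative `f` -/
theorem sum_PB_le {f : ℕ → ℝ} (hf : ∀ k, 1 ≤ k → f (k + 1) ≤ f k) (hf0 : ∀ k, 1 ≤ k → 0 ≤ f k)
    (X : ℝ) : ∑ c ∈ PB X, f (N c) ≤ 4 * ∑ n ∈ Finset.Icc 1 ⌊X⌋₊, f n := by
  rw [sum_PB_fiber]
  apply sum_mul_le_of_partial
  · intro k hk
    rw [sum_card_fiber hk]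
    exact card_PB_le (by positivity)
  · intro k hk _; exact hf k hk
  · exact hf0 _

/-- `∑_{c ∈ PB X} f(N c) ≥ (1/100) ∑_{n ≤ X} f(n)` for antitone nonnegative `f` -/
theorem sum_PB_ge {f : ℕ → ℝ} (hf : ∀ k, 1 ≤ k → f (k + 1) ≤ f k) (hf0 : ∀ k, 1 ≤ k → 0 ≤ f k)
    (X : ℝ) : (1 / 100) * ∑ n ∈ Finset.Icc 1 ⌊X⌋₊, f n ≤ ∑ c ∈ PB X, f (N c) := by
  rw [sum_PB_fiber]
  have := sum_mul_le_of_partial
    (fun n => - (((PB X).filter (fun c => N c = n)).card : ℝ)) f (-(1 / 100)) ⌊X⌋₊ ?_ ?_ (hf0 _)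
  · simp only [neg_mul, sum_neg_distrib] at this
    linarith
  · intro k hk
    rw [sum_neg_distrib, sum_card_fiber hk]
    by_cases h0 : k = 0
    · subst h0; simp
    · have h1 : (1 : ℝ) ≤ k := by exact_mod_cast (Nat.one_le_iff_ne_zero.2 h0)
      have := card_PB_ge h1
      linarith
  · intro k hk _; exact hf k hk

theorem sum_Icc_inv_le {X : ℝ} (hX : 1 ≤ X) :
    ∑ n ∈ Finset.Icc 1 ⌊X⌋₊, (n : ℝ)⁻¹ ≤ 1 + Real.log X := by
  have h1 := harmonic_le_one_add_log ⌊X⌋₊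
  rw [harmonic_eq_sum_Icc] at h1
  push_cast at h1
  refine h1.trans ?_
  have h2 : 1 ≤ ⌊X⌋₊ := (Nat.one_le_floor_iff X).2 hX
  have h3 : Real.log ⌊X⌋₊ ≤ Real.log X :=
    Real.log_le_log (by exact_mod_cast h2) (Nat.floor_le (by linarith))
  linarith

theorem log_le_sum_Icc_inv {X : ℝ} (hX : 1 ≤ X) :
    Real.log X ≤ ∑ n ∈ Finset.Icc 1 ⌊X⌋₊, (n : ℝ)⁻¹ := by
  have h1 := log_add_one_le_harmonic ⌊X⌋₊
  rw [harmonic_eq_sum_Icc] at h1
  push_cast at h1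
  refine le_trans ?_ h1
  exact Real.log_le_log (by linarith) (Nat.lt_floor_add_one X).le

/-- `∑_{N c ≤ X} 1 / N c ≤ 4 (1 + log X)` -/
theorem sum_inv_PB_le {X : ℝ} (hX : 1 ≤ X) :
    ∑ c ∈ PB X, (N c : ℝ)⁻¹ ≤ 4 * (1 + Real.log X) := by
  refine (sum_PB_le (f := fun n => (n : ℝ)⁻¹) ?_ ?_ X).trans ?_
  · intro k hk
    have : (0 : ℝ) < k := by exact_mod_cast hk
    gcongr
    simp
  · intro k _; positivity
  · have := sum_Icc_inv_le hX; linarith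

/-- `∑_{N c ≤ X} 1 / N c ≥ (log X) / 100` -/
theorem le_sum_inv_PB {X : ℝ} (hX : 1 ≤ X) :
    Real.log X / 100 ≤ ∑ c ∈ PB X, (N c : ℝ)⁻¹ := by
  refine le_trans ?_ (sum_PB_ge (f := fun n => (n : ℝ)⁻¹) ?_ ?_ X)
  · have := log_le_sum_Icc_inv hX; linarith
  · intro k hk
    have : (0 : ℝ) < k := by exact_mod_cast hk
    gcongr
    simp
  · intro k _; positivity

/-! ### Power sums -/

theorem rpow_neg_le_diff {s : ℝ} (hs0 : 0 ≤ s) (hs : s < 1) {n : ℕ} (hn : 1 ≤ n) :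
    ((n + 1 : ℕ) : ℝ) ^ (-s) ≤ (((n + 1 : ℕ) : ℝ) ^ (1 - s) - (n : ℝ) ^ (1 - s)) / (1 - s) := by
  have hn0 : (0 : ℝ) < n := by exact_mod_cast hn
  have h1 : (0 : ℝ) < ((n + 1 : ℕ) : ℝ) := by positivity
  have hs' : 0 < 1 - s := by linarith
  rw [le_div_iff₀ hs']
  have h2 : (n : ℝ) ^ (1 - s) =
      ((n + 1 : ℕ) : ℝ) ^ (1 - s) * ((n : ℝ) / ((n + 1 : ℕ) : ℝ)) ^ (1 - s) := by
    rw [← Real.mul_rpow h1.le (by positivity)]
    congr 1; field_simp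
  have h3 : ((n + 1 : ℕ) : ℝ) ^ (-s) = ((n + 1 : ℕ) : ℝ) ^ (1 - s) * (((n + 1 : ℕ) : ℝ))⁻¹ := by
    rw [← Real.rpow_neg_one, ← Real.rpow_add h1]; congr 1; ring
  rw [h2, h3]
  have hP : 0 < ((n + 1 : ℕ) : ℝ) ^ (1 - s) := Real.rpow_pos_of_pos h1 _
  have h4 : ((n : ℝ) / ((n + 1 : ℕ) : ℝ)) ^ (1 - s) ≤ 1 - (1 - s) * (((n + 1 : ℕ) : ℝ))⁻¹ := by
    have h5 : (n : ℝ) / ((n + 1 : ℕ) : ℝ) = 1 + (-(((n + 1 : ℕ) : ℝ))⁻¹) := by
      push_cast; field_simp; ring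
    rw [h5]
    have h6 := rpow_one_add_le_one_add_mul_self (s := -(((n + 1 : ℕ) : ℝ))⁻¹) (p := 1 - s) ?_
      hs'.le (by linarith)
    · linarith
    · have : (((n + 1 : ℕ) : ℝ))⁻¹ ≤ 1 := inv_le_one_of_one_le₀ (by push_cast; linarith)
      linarith
  nlinarith

theorem sum_Icc_rpow_neg_le {s : ℝ} (hs0 : 0 ≤ s) (hs : s < 1) (M : ℕ) :
    ∑ n ∈ Finset.Icc 1 M, (n : ℝ) ^ (-s) ≤ (M : ℝ) ^ (1 - s) / (1 - s) := by
  have hs' : 0 < 1 - s := by linarith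
  by_cases hM : M = 0
  · subst hM
    simp [Real.zero_rpow hs'.ne']
  have hM1 : 1 ≤ M := Nat.one_le_iff_ne_zero.2 hM
  induction M, hM1 using Nat.le_induction with
  | base =>
    simp
    rw [le_inv_comm₀ one_pos hs']; linarith
  | succ n hn ih =>
    rw [sum_Icc_succ_top (by omega)]
    have h1 := ih (by omega)
    have h2 := rpow_neg_le_diff hs0 hs hn
    have h3 : (n : ℝ) ^ (1 - s) / (1 - s) +
        (((n + 1 : ℕ) : ℝ) ^ (1 - s) - (n : ℝ) ^ (1 - s)) / (1 - s) =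
        ((n + 1 : ℕ) : ℝ) ^ (1 - s) / (1 - s) := by ring
    linarith

/-- `∑_{N c ≤ X} N(c)^{-s} ≤ (4 / (1-s)) X^{1-s}` for `0 ≤ s < 1` -/
theorem sum_PB_rpow_neg_le {s : ℝ} (hs0 : 0 ≤ s) (hs : s < 1) {X : ℝ} (hX : 0 ≤ X) :
    ∑ c ∈ PB X, (N c : ℝ) ^ (-s) ≤ 4 / (1 - s) * X ^ (1 - s) := by
  have hs' : 0 < 1 - s := by linarith
  refine (sum_PB_le (f := fun n => (n : ℝ) ^ (-s)) ?_ ?_ X).trans ?_
  · intro k hk
    have h0 : (0 : ℝ) < k := by exact_mod_cast hk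
    apply Real.rpow_le_rpow_of_nonpos h0 (by push_cast; linarith) (by linarith)
  · intro k _; positivity
  · have h1 := sum_Icc_rpow_neg_le hs0 hs ⌊X⌋₊
    have h2 : (⌊X⌋₊ : ℝ) ^ (1 - s) ≤ X ^ (1 - s) :=
      Real.rpow_le_rpow (by positivity) (Nat.floor_le hX) hs'.le
    calc 4 * ∑ n ∈ Finset.Icc 1 ⌊X⌋₊, (n : ℝ) ^ (-s) ≤ 4 * ((⌊X⌋₊ : ℝ) ^ (1 - s) / (1 - s)) := by
          linarith
      _ ≤ 4 * (X ^ (1 - s) / (1 - s)) := by gcongr
      _ = _ := by ring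

theorem sum_Icc_rpow_neg_le' {s : ℝ} (hs : 1 < s) (M : ℕ) :
    ∑ n ∈ Finset.Icc 1 M, (n : ℝ) ^ (-s) ≤ 1 + 1 / (s - 1) := by
  have hs' : 0 < s - 1 := by linarith
  have key : ∀ M : ℕ, 1 ≤ M → ∑ n ∈ Finset.Icc 1 M, (n : ℝ) ^ (-s) ≤
      1 + 1 / (s - 1) - (M : ℝ) ^ (1 - s) / (s - 1) := by
    intro M hM
    induction M, hM using Nat.le_induction with
    | base => simp
    | succ n hn ih =>
      rw [sum_Icc_succ_top (by omega)]
      have hn0 : (0 : ℝ) < n := by exact_mod_cast hn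
      have h1 : (0 : ℝ) < ((n + 1 : ℕ) : ℝ) := by positivity
      -- `(n+1)^{-s} (s-1) ≤ n^{1-s} - (n+1)^{1-s}`
      have h2 : (n : ℝ) ^ (1 - s) =
          ((n + 1 : ℕ) : ℝ) ^ (1 - s) * ((n : ℝ) / ((n + 1 : ℕ) : ℝ)) ^ (1 - s) := by
        rw [← Real.mul_rpow h1.le (by positivity)]
        congr 1; field_simp
      have h3 : ((n + 1 : ℕ) : ℝ) ^ (-s) =
          ((n + 1 : ℕ) : ℝ) ^ (1 - s) * (((n + 1 : ℕ) : ℝ))⁻¹ := by
        rw [← Real.rpow_neg_one, ← Real.rpow_add h1]; congr 1; ring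
      have hP : 0 < ((n + 1 : ℕ) : ℝ) ^ (1 - s) := Real.rpow_pos_of_pos h1 _
      have h4 : 1 + (s - 1) * (((n + 1 : ℕ) : ℝ))⁻¹ ≤
          ((n : ℝ) / ((n + 1 : ℕ) : ℝ)) ^ (1 - s) := by
        have h5 : 0 < (n : ℝ) / ((n + 1 : ℕ) : ℝ) := by positivity
        rw [Real.rpow_def_of_pos h5]
        have h6 : Real.log ((n : ℝ) / ((n + 1 : ℕ) : ℝ)) ≤ -(((n + 1 : ℕ) : ℝ))⁻¹ := by
          refine (Real.log_le_sub_one_of_pos h5).trans (le_of_eq ?_)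
          push_cast; field_simp; ring
        have h7 := Real.add_one_le_exp (Real.log ((n : ℝ) / ((n + 1 : ℕ) : ℝ)) * (1 - s))
        nlinarith
      have h8 : ((n + 1 : ℕ) : ℝ) ^ (-s) * (s - 1) ≤
          (n : ℝ) ^ (1 - s) - ((n + 1 : ℕ) : ℝ) ^ (1 - s) := by
        rw [h2, h3]; nlinarith
      have h9 : ((n + 1 : ℕ) : ℝ) ^ (-s) ≤
          ((n : ℝ) ^ (1 - s) - ((n + 1 : ℕ) : ℝ) ^ (1 - s)) / (s - 1) := by
        rw [le_div_iff₀ hs']; exact h8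
      have h10 : ((n : ℝ) ^ (1 - s) - ((n + 1 : ℕ) : ℝ) ^ (1 - s)) / (s - 1) =
          (n : ℝ) ^ (1 - s) / (s - 1) - ((n + 1 : ℕ) : ℝ) ^ (1 - s) / (s - 1) := by ring
      linarith
  by_cases hM : M = 0
  · subst hM; simp; positivity
  · have h1 := key M (Nat.one_le_iff_ne_zero.2 hM)
    have h2 : 0 ≤ (M : ℝ) ^ (1 - s) / (s - 1) := by positivity
    linarith

/-- `∑_{N c ≤ X} N(c)^{-s} ≤ 4 (1 + 1 / (s-1))` for `s > 1` -/
theorem sum_PB_rpow_neg_le' {s : ℝ} (hs : 1 < s) (X : ℝ) :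
    ∑ c ∈ PB X, (N c : ℝ) ^ (-s) ≤ 4 * (1 + 1 / (s - 1)) := by
  refine (sum_PB_le (f := fun n => (n : ℝ) ^ (-s)) ?_ ?_ X).trans ?_
  · intro k hk
    have h0 : (0 : ℝ) < k := by exact_mod_cast hk
    apply Real.rpow_le_rpow_of_nonpos h0 (by push_cast; linarith) (by linarith)
  · intro k _; positivity
  · have h1 := sum_Icc_rpow_neg_le' hs ⌊X⌋₊
    linarith

/-! ### Dirichlet reindexing and multiples -/

theorem mul_div_of_dvd {c d : O} (hd : d ≠ 0) (h : d ∣ c) : d * (c / d) = c :=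
  EuclideanDomain.mul_div_cancel' hd h

theorem mul_div_self {a b : O} (ha : a ≠ 0) : a * b / a = b :=
  mul_div_cancel_left₀ b ha

theorem Primary.div {c d : O} (hc : Primary c) (hd : Primary d) (h : d ∣ c) : Primary (c / d) :=
  hd.of_mul (by rw [mul_div_of_dvd hd.ne_zero h]; exact hc)

/-- `∑_{c} ∑_{d | c} F(d, c/d) = ∑_{a} ∑_{N b ≤ X / N a} F(a, b)` -/
theorem sum_dvs_PB {M : Type*} [AddCommMonoid M] (X : ℝ) (F : O → O → M) :
    ∑ c ∈ PB X, ∑ d ∈ dvs c, F d (c / d) = ∑ a ∈ PB X, ∑ b ∈ PB (X / N a), F a b := by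
  rw [sum_sigma', sum_sigma']
  refine sum_bij' (fun x _ => ⟨x.2, x.1 / x.2⟩) (fun y _ => ⟨y.1 * y.2, y.1⟩) ?_ ?_ ?_ ?_ ?_
  · rintro ⟨c, d⟩ h
    simp only [mem_sigma, mem_PB] at h ⊢
    obtain ⟨⟨hc, hcX⟩, hd⟩ := h
    rw [mem_dvs hc.ne_zero] at hd
    have h1 := mul_div_of_dvd hd.1.ne_zero hd.2
    have h2 := hc.div hd.1 hd.2
    have h3 : (N c : ℝ) = N d * N (c / d) := by
      conv_lhs => rw [← h1]
      rw [N_mul]; push_cast; ring
    refine ⟨⟨hd.1, ?_⟩, h2, ?_⟩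
    · have := h2.one_le_N'
      have := hd.1.one_le_N'
      nlinarith
    · rw [le_div_iff₀ (by linarith [hd.1.one_le_N'])]
      linarith
  · rintro ⟨a, b⟩ h
    simp only [mem_sigma, mem_PB] at h ⊢
    obtain ⟨⟨ha, _⟩, hb, hbX⟩ := h
    rw [le_div_iff₀ (by linarith [ha.one_le_N'])] at hbX
    refine ⟨⟨ha.mul hb, ?_⟩, ?_⟩
    · rw [N_mul]; push_cast; linarith
    · rw [mem_dvs (ha.mul hb).ne_zero]
      exact ⟨ha, dvd_mul_right _ _⟩
  · rintro ⟨c, d⟩ h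
    simp only [mem_sigma, mem_PB] at h
    obtain ⟨⟨hc, _⟩, hd⟩ := h
    rw [mem_dvs hc.ne_zero] at hd
    have h1 := mul_div_of_dvd hd.1.ne_zero hd.2
    simp only [h1]
  · rintro ⟨a, b⟩ h
    simp only [mem_sigma, mem_PB] at h
    have h1 : a * b / a = b := mul_div_self h.1.1.ne_zero
    simp only [h1]
  · rintro ⟨c, d⟩ _; rfl

/-- sum over the multiples of a primary element -/
theorem sum_multiples_PB {M : Type*} [AddCommMonoid M] (X : ℝ) {d : O} (hd : Primary d)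
    (F : O → M) :
    ∑ c ∈ (PB X).filter (d ∣ ·), F c = ∑ b ∈ PB (X / N d), F (d * b) := by
  have hN : (0 : ℝ) < N d := by linarith [hd.one_le_N']
  refine sum_bij' (fun c _ => c / d) (fun b _ => d * b) ?_ ?_ ?_ ?_ ?_
  · intro c hc
    rw [mem_filter, mem_PB] at hc
    obtain ⟨⟨h1, h2⟩, h3⟩ := hc
    have h4 := mul_div_of_dvd hd.ne_zero h3
    rw [mem_PB]
    refine ⟨h1.div hd h3, ?_⟩
    rw [le_div_iff₀ hN]
    have h5 : (N c : ℝ) = N d * N (c / d) := by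
      conv_lhs => rw [← h4]
      rw [N_mul]; push_cast; ring
    linarith
  · intro b hb
    rw [mem_PB, le_div_iff₀ hN] at hb
    rw [mem_filter, mem_PB]
    refine ⟨⟨hd.mul hb.1, ?_⟩, dvd_mul_right _ _⟩
    rw [N_mul]; push_cast; linarith [hb.2]
  · intro c hc
    rw [mem_filter] at hc
    exact mul_div_of_dvd hd.ne_zero hc.2
  · intro b _
    exact mul_div_self hd.ne_zero
  · intro c hc
    rw [mem_filter] at hc
    rw [mul_div_of_dvd hd.ne_zero hc.2]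

theorem card_multiples_PB (X : ℝ) {d : O} (hd : Primary d) :
    ((PB X).filter (d ∣ ·)).card = (PB (X / N d)).card := by
  have := sum_multiples_PB X hd (fun _ => 1)
  simpa using this

/-! ### Moments of the divisor function -/

theorem sum_mul_tau_le (f : O → ℝ) (hf0 : ∀ c, Primary c → 0 ≤ f c)
    (hf : ∀ a b, Primary a → Primary b → f (a * b) ≤ f a * f b) (X : ℝ) :
    ∑ c ∈ PB X, f c * tau c / N c ≤ (∑ c ∈ PB X, f c / N c) ^ 2 := by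
  have h1 : ∀ c ∈ PB X, f c * tau c / N c ≤
      ∑ d ∈ dvs c, (f d / N d) * (f (c / d) / N (c / d)) := by
    intro c hc
    rw [mem_PB] at hc
    have h2 : f c * tau c / N c = ∑ d ∈ dvs c, f c / N c := by
      rw [sum_const, nsmul_eq_mul, tau]; ring
    rw [h2]
    refine sum_le_sum fun d hd => ?_
    rw [mem_dvs hc.1.ne_zero] at hd
    have h3 := mul_div_of_dvd hd.1.ne_zero hd.2
    have h4 := hc.1.div hd.1 hd.2
    have h5 : (N c : ℝ) = N d * N (c / d) := by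
      conv_lhs => rw [← h3]
      rw [N_mul]; push_cast; ring
    have h6 : f c ≤ f d * f (c / d) := by
      conv_lhs => rw [← h3]
      exact hf _ _ hd.1 h4
    rw [div_mul_div_comm, h5]
    gcongr
  refine (sum_le_sum h1).trans ?_
  rw [sum_dvs_PB X (fun a b => (f a / N a) * (f b / N b)), sq, sum_mul_sum]
  refine sum_le_sum fun a ha => ?_
  rw [mem_PB] at ha
  apply sum_le_sum_of_subset_of_nonneg
  · apply PB_mono
    by_cases hX : 0 ≤ X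
    · exact div_le_self hX ha.1.one_le_N'
    · have := ha.1.one_le_N'
      linarith [ha.2]
  · intro b hb _
    rw [mem_PB] at hb
    have := hf0 a ha.1
    have := hf0 b hb.1
    positivity

theorem sum_tau_pow_div_le_pow (k : ℕ) (X : ℝ) :
    ∑ c ∈ PB X, (tau c : ℝ) ^ k / N c ≤ (∑ c ∈ PB X, (N c : ℝ)⁻¹) ^ (2 ^ k) := by
  induction k with
  | zero => simp
  | succ k ih =>
    have h1 := sum_mul_tau_le (fun c => (tau c : ℝ) ^ k) (fun c _ => by positivity) ?_ X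
    · have h2 : ∑ c ∈ PB X, (tau c : ℝ) ^ (k + 1) / N c =
          ∑ c ∈ PB X, (tau c : ℝ) ^ k * tau c / N c := by
        refine sum_congr rfl fun c _ => by rw [pow_succ]
      rw [h2]
      refine h1.trans ?_
      rw [pow_succ 2 k, pow_mul]
      apply pow_le_pow_left₀ (sum_nonneg fun c _ => by positivity) ih
    · intro a b ha hb
      rw [← mul_pow]
      apply pow_le_pow_left₀ (by positivity)
      exact_mod_cast tau_mul_le ha hb

/-- `∑_{N c ≤ X} τ(c)^k / N c ≤ (4 (1 + log X))^{2^k}` -/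
theorem sum_tau_pow_div_le (k : ℕ) {X : ℝ} (hX : 1 ≤ X) :
    ∑ c ∈ PB X, (tau c : ℝ) ^ k / N c ≤ (4 * (1 + Real.log X)) ^ (2 ^ k) :=
  (sum_tau_pow_div_le_pow k X).trans
    (pow_le_pow_left₀ (sum_nonneg fun c _ => by positivity) (sum_inv_PB_le hX) _)

/-- `∑_{N c ≤ X} τ(c)^k ≤ X (4 (1 + log X))^{2^k}` -/
theorem sum_tau_pow_le (k : ℕ) {X : ℝ} (hX : 1 ≤ X) :
    ∑ c ∈ PB X, (tau c : ℝ) ^ k ≤ X * (4 * (1 + Real.log X)) ^ (2 ^ k) := by
  refine le_trans ?_ (mul_le_mul_of_nonneg_left (sum_tau_pow_div_le k hX) (by linarith))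
  rw [mul_sum]
  refine sum_le_sum fun c hc => ?_
  rw [mem_PB] at hc
  have h1 := hc.1.one_le_N'
  rw [mul_div_assoc', le_div_iff₀ (by linarith)]
  have : 0 ≤ (tau c : ℝ) ^ k := by positivity
  nlinarith [hc.2]

end Vale.Agent.P006
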