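import Vale.Agent.P006.H845.Count
import Mathlib.Data.Prod.Lex
import Mathlib.Algebra.Squarefree.Basic

/-!
P006, block ROUGH (helper845): the total order on primary primes (by norm, ties broken by
coordinates), smallest and largest prime factors, rough and smooth elements.
-/

namespace Vale.Agent.P006

open Finset

/-- all elements of norm at most `X` (real `X`) -/
noncomputable def NB (X : ℝ) : Finset O := if X < 0 then ∅ else ballO ⌊X⌋₊

@[simp] theorem mem_NB {X : ℝ} {z : O} : z ∈ NB X ↔ (N z : ℝ) ≤ X := by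
  rw [NB]
  split_ifs with h
  · simp only [notMem_empty, false_iff, not_le]
    exact h.trans_le (by positivity)
  · rw [mem_ballO]
    exact Nat.le_floor_iff (not_lt.1 h)

theorem PB_subset_NB {X : ℝ} : PB X ⊆ NB X := fun c hc => by
  rw [mem_PB] at hc; rw [mem_NB]; exact hc.2

open Classical in
/-- the squarefree primary elements of norm at most `X` -/
noncomputable def SPB (X : ℝ) : Finset O := (PB X).filter Squarefree

open Classical in
@[simp] theorem mem_SPB {X : ℝ} {c : O} :
    c ∈ SPB X ↔ (Primary c ∧ (N c : ℝ) ≤ X) ∧ Squarefree c := by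
  rw [SPB, mem_filter, mem_PB]

open Classical in
theorem SPB_subset_PB {X : ℝ} : SPB X ⊆ PB X := filter_subset _ _

open Classical in
/-- the primary primes of norm at most `X` -/
noncomputable def PP (X : ℝ) : Finset O := (PB X).filter Prime

open Classical in
@[simp] theorem mem_PP {X : ℝ} {c : O} :
    c ∈ PP X ↔ (Primary c ∧ (N c : ℝ) ≤ X) ∧ Prime c := by
  rw [PP, mem_filter, mem_PB]

/-! ### The order -/

/-- the key defining the total order: norm first, then coordinates -/
def key (z : O) : ℕ ×ₗ ℤ ×ₗ ℤ := toLex (N z, toLex (z.re, z.im))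

theorem key_injective : Function.Injective key := by
  intro x y h
  have h1 := congrArg (fun t => (ofLex (ofLex t).2)) h
  simp only [key, ofLex_toLex, Prod.mk.injEq] at h1
  exact QuadraticAlgebra.ext h1.1 h1.2

theorem key_inj {x y : O} : key x = key y ↔ x = y := key_injective.eq_iff

theorem key_lt_of_N_lt {x y : O} (h : N x < N y) : key x < key y := by
  rw [key, key, Prod.Lex.lt_iff]; left; exact h

theorem N_le_of_key_le {x y : O} (h : key x ≤ key y) : N x ≤ N y := by
  rw [key, key, Prod.Lex.le_iff] at h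
  rcases h with h | h
  · exact le_of_lt h
  · exact le_of_eq h.1

theorem N_le_of_key_lt {x y : O} (h : key x < key y) : N x ≤ N y := N_le_of_key_le h.le

/-! ### Prime divisors -/

open Classical in
/-- the primary prime divisors of `c` (for `c ≠ 0`) -/
noncomputable def pdv (c : O) : Finset O := (dvs c).filter Prime

open Classical in
theorem mem_pdv {c p : O} (hc : c ≠ 0) : p ∈ pdv c ↔ Primary p ∧ Prime p ∧ p ∣ c := by
  rw [pdv, mem_filter, mem_dvs hc]; tauto

/-- every non-unit dividing a primary element has a primary prime divisor -/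
theorem exists_primary_prime_dvd {c d : O} (hc : Primary c) (hd : d ∣ c) (hu : ¬ IsUnit d) :
    ∃ p, Primary p ∧ Prime p ∧ p ∣ d := by
  have hd0 : d ≠ 0 := ne_zero_of_dvd_ne_zero hc.ne_zero hd
  obtain ⟨π, hπ, hπd⟩ := WfDvdMonoid.exists_irreducible_factor hu hd0
  have hl : ¬ lam ∣ π := fun h => hc.not_lam_dvd ((h.trans hπd).trans hd)
  obtain ⟨u, hu, hp⟩ := exists_unit_mul_primary hl
  have has : Associated π (u * π) := associated_unit_mul_right π u hu
  exact ⟨u * π, hp, has.prime hπ.prime, has.symm.dvd.trans hπd⟩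

theorem pdv_nonempty {c : O} (hc : Primary c) (h1 : c ≠ 1) : (pdv c).Nonempty := by
  have hu : ¬ IsUnit c := fun h => h1 (hc.eq_one h)
  obtain ⟨p, hp, hpp, hpc⟩ := exists_primary_prime_dvd hc dvd_rfl hu
  exact ⟨p, (mem_pdv hc.ne_zero).2 ⟨hp, hpp, hpc⟩⟩

theorem pdv_one : pdv 1 = ∅ := by
  rw [eq_empty_iff_forall_notMem]
  intro p hp
  rw [mem_pdv one_ne_zero] at hp
  exact hp.2.1.not_isUnit (isUnit_of_dvd_one hp.2.2)

theorem pdv_mul {a b : O} (ha : Primary a) (hb : Primary b) : pdv (a * b) = pdv a ∪ pdv b := by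
  ext p
  rw [mem_union, mem_pdv (ha.mul hb).ne_zero, mem_pdv ha.ne_zero, mem_pdv hb.ne_zero]
  constructor
  · rintro ⟨h1, h2, h3⟩
    rcases h2.dvd_or_dvd h3 with h | h
    · exact Or.inl ⟨h1, h2, h⟩
    · exact Or.inr ⟨h1, h2, h⟩
  · rintro (⟨h1, h2, h3⟩ | ⟨h1, h2, h3⟩)
    · exact ⟨h1, h2, h3.mul_right b⟩
    · exact ⟨h1, h2, h3.mul_left a⟩

theorem pdv_prime {p : O} (hp : Prime p) (hpp : Primary p) : pdv p = {p} := by
  ext q
  rw [mem_singleton, mem_pdv hpp.ne_zero]
  constructor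
  · rintro ⟨h1, h2, h3⟩
    exact h1.eq_of_associated hpp (h2.associated_of_dvd hp h3)
  · rintro rfl; exact ⟨hpp, hp, dvd_rfl⟩

/-- smallest prime factor with respect to `key` (junk value `0` for `c = 1`) -/
noncomputable def Pmin (c : O) : O :=
  if h : (pdv c).Nonempty then (exists_min_image (pdv c) key h).choose else 0

/-- largest prime factor with respect to `key` (junk value `0` for `c = 1`) -/
noncomputable def Pmax (c : O) : O :=
  if h : (pdv c).Nonempty then (exists_max_image (pdv c) key h).choose else 0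

theorem Pmin_mem {c : O} (hc : Primary c) (h1 : c ≠ 1) : Pmin c ∈ pdv c := by
  have h := pdv_nonempty hc h1
  rw [Pmin, dif_pos h]
  exact (exists_min_image (pdv c) key h).choose_spec.1

theorem Pmax_mem {c : O} (hc : Primary c) (h1 : c ≠ 1) : Pmax c ∈ pdv c := by
  have h := pdv_nonempty hc h1
  rw [Pmax, dif_pos h]
  exact (exists_max_image (pdv c) key h).choose_spec.1

theorem key_Pmin_le {c q : O} (hq : q ∈ pdv c) : key (Pmin c) ≤ key q := by
  have h : (pdv c).Nonempty := ⟨q, hq⟩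
  rw [Pmin, dif_pos h]
  exact (exists_min_image (pdv c) key h).choose_spec.2 q hq

theorem le_key_Pmax {c q : O} (hq : q ∈ pdv c) : key q ≤ key (Pmax c) := by
  have h : (pdv c).Nonempty := ⟨q, hq⟩
  rw [Pmax, dif_pos h]
  exact (exists_max_image (pdv c) key h).choose_spec.2 q hq

theorem Pmin_eq {c p : O} (hp : p ∈ pdv c) (h : ∀ q ∈ pdv c, key p ≤ key q) : Pmin c = p := by
  have hne : (pdv c).Nonempty := ⟨p, hp⟩
  have h1 : Pmin c ∈ pdv c := by
    rw [Pmin, dif_pos hne]
    exact (exists_min_image (pdv c) key hne).choose_spec.1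
  exact key_injective ((key_Pmin_le hp).antisymm (h _ h1))

theorem Pmax_eq {c p : O} (hp : p ∈ pdv c) (h : ∀ q ∈ pdv c, key q ≤ key p) : Pmax c = p := by
  have hne : (pdv c).Nonempty := ⟨p, hp⟩
  have h1 : Pmax c ∈ pdv c := by
    rw [Pmax, dif_pos hne]
    exact (exists_max_image (pdv c) key hne).choose_spec.1
  exact key_injective ((h _ h1).antisymm (le_key_Pmax hp))

theorem Pmin_prime {c : O} (hc : Primary c) (h1 : c ≠ 1) : Prime (Pmin c) :=
  ((mem_pdv hc.ne_zero).1 (Pmin_mem hc h1)).2.1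

theorem Pmin_primary {c : O} (hc : Primary c) (h1 : c ≠ 1) : Primary (Pmin c) :=
  ((mem_pdv hc.ne_zero).1 (Pmin_mem hc h1)).1

theorem Pmin_dvd {c : O} (hc : Primary c) (h1 : c ≠ 1) : Pmin c ∣ c :=
  ((mem_pdv hc.ne_zero).1 (Pmin_mem hc h1)).2.2

theorem Pmax_prime {c : O} (hc : Primary c) (h1 : c ≠ 1) : Prime (Pmax c) :=
  ((mem_pdv hc.ne_zero).1 (Pmax_mem hc h1)).2.1

theorem Pmax_primary {c : O} (hc : Primary c) (h1 : c ≠ 1) : Primary (Pmax c) :=
  ((mem_pdv hc.ne_zero).1 (Pmax_mem hc h1)).1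

theorem Pmax_dvd {c : O} (hc : Primary c) (h1 : c ≠ 1) : Pmax c ∣ c :=
  ((mem_pdv hc.ne_zero).1 (Pmax_mem hc h1)).2.2

/-! ### Squarefree elements and removing the extreme prime -/

theorem pdv_of_dvd {c d : O} (hc : c ≠ 0) (h : d ∣ c) : pdv d ⊆ pdv c := by
  intro p hp
  rw [mem_pdv (ne_zero_of_dvd_ne_zero hc h)] at hp
  rw [mem_pdv hc]
  exact ⟨hp.1, hp.2.1, hp.2.2.trans h⟩

/-- a squarefree primary element `c ≠ 1` is `Pmin c * m` with `key (Pmin c) < key q` for all
prime factors `q` of `m` -/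
theorem exists_eq_Pmin_mul {c : O} (hc : Primary c) (h1 : c ≠ 1) (hs : Squarefree c) :
    ∃ m, Primary m ∧ Squarefree m ∧ c = Pmin c * m ∧ ∀ q ∈ pdv m, key (Pmin c) < key q := by
  obtain ⟨m, hm⟩ := Pmin_dvd hc h1
  have hmp : Primary m := (Pmin_primary hc h1).of_mul (hm ▸ hc)
  have hmc : m ∣ c := ⟨Pmin c, by rw [mul_comm]; exact hm⟩
  refine ⟨m, hmp, hs.squarefree_of_dvd hmc, hm, ?_⟩
  intro q hq
  refine lt_of_le_of_ne (key_Pmin_le (pdv_of_dvd hc.ne_zero hmc hq)) ?_
  intro h
  have h2 : Pmin c = q := key_injective h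
  rw [mem_pdv hmp.ne_zero, ← h2] at hq
  have h3 : Pmin c * Pmin c ∣ c := by
    conv_rhs => rw [hm]
    exact mul_dvd_mul_left _ hq.2.2
  exact hq.2.1.not_isUnit (hs _ h3)

theorem exists_eq_Pmax_mul {c : O} (hc : Primary c) (h1 : c ≠ 1) (hs : Squarefree c) :
    ∃ m, Primary m ∧ Squarefree m ∧ c = Pmax c * m ∧ ∀ q ∈ pdv m, key q < key (Pmax c) := by
  obtain ⟨m, hm⟩ := Pmax_dvd hc h1
  have hmp : Primary m := (Pmax_primary hc h1).of_mul (hm ▸ hc)
  have hmc : m ∣ c := ⟨Pmax c, by rw [mul_comm]; exact hm⟩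
  refine ⟨m, hmp, hs.squarefree_of_dvd hmc, hm, ?_⟩
  intro q hq
  refine lt_of_le_of_ne (le_key_Pmax (pdv_of_dvd hc.ne_zero hmc hq)) ?_
  intro h
  have h2 : q = Pmax c := key_injective h
  rw [mem_pdv hmp.ne_zero, h2] at hq
  have h3 : Pmax c * Pmax c ∣ c := by
    conv_rhs => rw [hm]
    exact mul_dvd_mul_left _ hq.2.2
  exact hq.2.1.not_isUnit (hs _ h3)

theorem squarefree_prime_mul {p m : O} (hp : Prime p) (hm : Squarefree m) (h : ¬ p ∣ m) :
    Squarefree (p * m) := by
  have hcop : IsRelPrime p m := (hp.irreducible.isRelPrime_iff_not_dvd).2 h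
  exact (squarefree_mul_iff).2 ⟨hcop, hp.squarefree, hm⟩

/-- conversely, `Pmin (p * m) = p` if all prime factors of `m` are larger -/
theorem Pmin_mul {p m : O} (hp : Prime p) (hpp : Primary p) (hm : Primary m)
    (h : ∀ q ∈ pdv m, key p < key q) : Pmin (p * m) = p := by
  apply Pmin_eq
  · rw [mem_pdv (hpp.mul hm).ne_zero]; exact ⟨hpp, hp, dvd_mul_right _ _⟩
  · intro q hq
    rw [pdv_mul hpp hm, mem_union, pdv_prime hp hpp, mem_singleton] at hq
    rcases hq with rfl | hq
    · exact le_rfl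
    · exact (h q hq).le

theorem Pmax_mul {p m : O} (hp : Prime p) (hpp : Primary p) (hm : Primary m)
    (h : ∀ q ∈ pdv m, key q < key p) : Pmax (p * m) = p := by
  apply Pmax_eq
  · rw [mem_pdv (hpp.mul hm).ne_zero]; exact ⟨hpp, hp, dvd_mul_right _ _⟩
  · intro q hq
    rw [pdv_mul hpp hm, mem_union, pdv_prime hp hpp, mem_singleton] at hq
    rcases hq with rfl | hq
    · exact le_rfl
    · exact (h q hq).le

/-! ### Rough and smooth elements -/

/-- all prime factors of `c` have norm `≥ z` -/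
def Rough (z : ℝ) (c : O) : Prop := ∀ p : O, Prime p → p ∣ c → z ≤ N p

/-- all prime factors of `c` have norm `< z` -/
def Smooth (z : ℝ) (c : O) : Prop := ∀ p : O, Prime p → p ∣ c → (N p : ℝ) < z

theorem Rough.mono {z w : ℝ} {c : O} (h : Rough z c) (hw : w ≤ z) : Rough w c :=
  fun p hp hpc => hw.trans (h p hp hpc)

theorem Smooth.mono {z w : ℝ} {c : O} (h : Smooth z c) (hw : z ≤ w) : Smooth w c :=
  fun p hp hpc => (h p hp hpc).trans_le hw

theorem Rough.of_dvd {z : ℝ} {c d : O} (h : Rough z c) (hd : d ∣ c) : Rough z d :=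
  fun p hp hpd => h p hp (hpd.trans hd)

theorem Smooth.of_dvd {z : ℝ} {c d : O} (h : Smooth z c) (hd : d ∣ c) : Smooth z d :=
  fun p hp hpd => h p hp (hpd.trans hd)

theorem Rough.mul {z : ℝ} {a b : O} (ha : Rough z a) (hb : Rough z b) : Rough z (a * b) := by
  intro p hp h
  rcases hp.dvd_or_dvd h with h | h
  · exact ha p hp h
  · exact hb p hp h

theorem Smooth.mul {z : ℝ} {a b : O} (ha : Smooth z a) (hb : Smooth z b) : Smooth z (a * b) := by
  intro p hp h
  rcases hp.dvd_or_dvd h with h | h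
  · exact ha p hp h
  · exact hb p hp h

theorem rough_one (z : ℝ) : Rough z 1 := fun _ hp h => (hp.not_isUnit (isUnit_of_dvd_one h)).elim

theorem smooth_one (z : ℝ) : Smooth z 1 := fun _ hp h => (hp.not_isUnit (isUnit_of_dvd_one h)).elim

/-- it suffices to test primary primes -/
theorem rough_iff {z : ℝ} {c : O} (hc : Primary c) : Rough z c ↔ ∀ p ∈ pdv c, z ≤ N p := by
  constructor
  · intro h p hp
    rw [mem_pdv hc.ne_zero] at hp
    exact h p hp.2.1 hp.2.2
  · intro h p hp hpc
    obtain ⟨q, hq, hqp, hqd⟩ := exists_primary_prime_dvd hc hpc hp.not_isUnit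
    have has : Associated q p := hqp.associated_of_dvd hp hqd
    rw [← N_eq_of_associated has]
    exact h q ((mem_pdv hc.ne_zero).2 ⟨hq, hqp, hqd.trans hpc⟩)

theorem smooth_iff {z : ℝ} {c : O} (hc : Primary c) : Smooth z c ↔ ∀ p ∈ pdv c, (N p : ℝ) < z := by
  constructor
  · intro h p hp
    rw [mem_pdv hc.ne_zero] at hp
    exact h p hp.2.1 hp.2.2
  · intro h p hp hpc
    obtain ⟨q, hq, hqp, hqd⟩ := exists_primary_prime_dvd hc hpc hp.not_isUnit
    have has : Associated q p := hqp.associated_of_dvd hp hqd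
    rw [← N_eq_of_associated has]
    exact h q ((mem_pdv hc.ne_zero).2 ⟨hq, hqp, hqd.trans hpc⟩)

theorem rough_prime {z : ℝ} {p : O} (hp : Prime p) (h : z ≤ N p) : Rough z p := by
  intro q hq hqp
  rwa [N_eq_of_associated (hq.associated_of_dvd hp hqp)]

theorem smooth_prime {z : ℝ} {p : O} (hp : Prime p) (h : (N p : ℝ) < z) : Smooth z p := by
  intro q hq hqp
  rwa [N_eq_of_associated (hq.associated_of_dvd hp hqp)]

/-- every primary element is the product of a smooth and a rough primary element -/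
theorem exists_smooth_mul_rough (z : ℝ) (c : O) (hc : Primary c) :
    ∃ s r, Primary s ∧ Primary r ∧ Smooth z s ∧ Rough z r ∧ c = s * r := by
  revert c
  refine Primary.induction ⟨1, 1, primary_one, primary_one, smooth_one z, rough_one z, by simp⟩ ?_
  intro p b hp hpp _ ⟨s, r, hs, hr, h1, h2, h3⟩
  by_cases h : z ≤ N p
  · exact ⟨s, p * r, hs, hpp.mul hr, h1, (rough_prime hp h).mul h2, by rw [h3]; ring⟩
  · exact ⟨p * s, r, hpp.mul hs, hr, (smooth_prime hp (not_le.1 h)).mul h1, h2, by rw [h3]; ring⟩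

/-- smooth and rough elements are coprime -/
theorem isRelPrime_smooth_rough {z : ℝ} {s r : O} (hs : Primary s) (h1 : Smooth z s)
    (h2 : Rough z r) : IsRelPrime s r := by
  intro d hd1 hd2
  by_contra hu
  obtain ⟨p, _, hp, hpd⟩ := exists_primary_prime_dvd hs hd1 hu
  exact absurd (h1 p hp (hpd.trans hd1)) (not_lt.2 (h2 p hp (hpd.trans hd2)))

/-- the decomposition is unique -/
theorem smooth_mul_rough_unique {z : ℝ} {s r s' r' : O} (hs : Primary s)
    (hs' : Primary s') (h1 : Smooth z s) (h2 : Rough z r) (h1' : Smooth z s')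
    (h2' : Rough z r') (h : s * r = s' * r') : s = s' ∧ r = r' := by
  have h3 : s ∣ s' := (isRelPrime_smooth_rough hs h1 h2').dvd_of_dvd_mul_right (h ▸ dvd_mul_right s r)
  have h4 : s' ∣ s :=
    (isRelPrime_smooth_rough hs' h1' h2).dvd_of_dvd_mul_right (h ▸ dvd_mul_right s' r')
  have h5 : s = s' := hs.eq_of_dvd_dvd hs' h3 h4
  refine ⟨h5, ?_⟩
  rw [h5] at h
  exact mul_left_cancel₀ hs'.ne_zero h

/-- a `z`-rough element of norm `≤ X = z^k` has at most `k` prime factors -/
theorem card_pdv_rough_le {z : ℝ} (hz : 1 < z) {c : O} (hc : Primary c) (h : Rough z c) :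
    z ^ (pdv c).card ≤ N c := by
  revert h
  revert c
  refine fun {c} hc => Primary.induction (P := fun c => Rough z c → z ^ (pdv c).card ≤ N c)
    ?_ ?_ c hc
  · intro _; rw [pdv_one]; simp
  · intro p b hp hpp hb ih h
    have h1 := ih (h.of_dvd (dvd_mul_left _ _))
    have h2 : z ≤ N p := h p hp (dvd_mul_right _ _)
    rw [pdv_mul hpp hb, pdv_prime hp hpp, N_mul, Nat.cast_mul]
    have h3 : ({p} ∪ pdv b).card ≤ (pdv b).card + 1 := by
      have := card_union_le {p} (pdv b)
      rw [card_singleton] at this; omega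
    calc z ^ ({p} ∪ pdv b).card ≤ z ^ ((pdv b).card + 1) := pow_le_pow_right₀ hz.le h3
      _ = z * z ^ (pdv b).card := by ring
      _ ≤ N p * N b := mul_le_mul h2 h1 (by positivity) (by positivity)

end Vale.Agent.P006
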