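import Vale.Agent.P006.CR.Residue
import Mathlib.Analysis.SpecialFunctions.Log.Base
import Mathlib.Analysis.SpecialFunctions.Pow.Real
import Mathlib.Analysis.Complex.ExponentialBounds
import Mathlib.Data.Nat.Log
import Mathlib.Tactic

/-!
P006, block ROUGH (helper845): finite sets of elements of `O = ℤ[ω]` of bounded norm,
crude counting, primary divisors, the divisor function and its basic bounds.
-/

namespace Vale.Agent.P006

open Finset

/-! ### Elements of bounded norm -/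

theorem four_N_ge_re (z : O) : 3 * z.re ^ 2 ≤ 4 * (N z : ℤ) := by
  rw [N_cast_int']; nlinarith [sq_nonneg (z.re - 2 * z.im)]

theorem four_N_ge_im (z : O) : 3 * z.im ^ 2 ≤ 4 * (N z : ℤ) := by
  rw [N_cast_int']; nlinarith [sq_nonneg (2 * z.re - z.im)]

theorem abs_le_of_N_le {z : O} {n : ℕ} (h : N z ≤ n) :
    |z.re| ≤ n + 1 ∧ |z.im| ≤ n + 1 := by
  have h1 := four_N_ge_re z
  have h2 := four_N_ge_im z
  have h3 : (N z : ℤ) ≤ n := by exact_mod_cast h
  constructor
  · apply abs_le_of_sq_le_sq _ (by positivity)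
    nlinarith
  · apply abs_le_of_sq_le_sq _ (by positivity)
    nlinarith

/-- all elements of norm at most `n` -/
noncomputable def ballO (n : ℕ) : Finset O :=
  ((Finset.Icc (-(n + 1 : ℤ)) (n + 1) ×ˢ Finset.Icc (-(n + 1 : ℤ)) (n + 1)).image
    (fun p => (⟨p.1, p.2⟩ : O))).filter (fun z => N z ≤ n)

@[simp] theorem mem_ballO {n : ℕ} {z : O} : z ∈ ballO n ↔ N z ≤ n := by
  simp only [ballO, mem_filter, mem_image, mem_product, Finset.mem_Icc, Prod.exists]
  constructor
  · exact fun h => h.2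
  · intro h
    have h1 := abs_le_of_N_le h
    refine ⟨⟨z.re, z.im, ?_, rfl⟩, h⟩
    rw [abs_le, abs_le] at h1
    exact ⟨⟨h1.1.1, h1.1.2⟩, ⟨h1.2.1, h1.2.2⟩⟩

/-- the primary elements of norm at most `X` -/
noncomputable def PB (X : ℝ) : Finset O := (ballO ⌊X⌋₊).filter Primary

theorem N_le_floor {X : ℝ} {c : O} (hc : Primary c) : N c ≤ ⌊X⌋₊ ↔ (N c : ℝ) ≤ X := by
  have h := N_pos hc.ne_zero
  constructor
  · intro h2
    have h3 : ⌊X⌋₊ ≠ 0 := by omega
    exact (Nat.le_floor_iff' h.ne').1 h2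
  · intro h2
    exact Nat.le_floor h2

@[simp] theorem mem_PB {X : ℝ} {c : O} : c ∈ PB X ↔ Primary c ∧ (N c : ℝ) ≤ X := by
  rw [PB, mem_filter, mem_ballO]
  constructor
  · rintro ⟨h1, h2⟩
    exact ⟨h2, (N_le_floor h2).1 h1⟩
  · rintro ⟨h1, h2⟩
    exact ⟨(N_le_floor h1).2 h2, h1⟩

theorem PB_mono {X Y : ℝ} (h : X ≤ Y) : PB X ⊆ PB Y := by
  intro c hc
  rw [mem_PB] at *
  exact ⟨hc.1, hc.2.trans h⟩

theorem Primary.one_le_N {c : O} (hc : Primary c) : 1 ≤ N c := N_pos hc.ne_zero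

theorem Primary.one_le_N' {c : O} (hc : Primary c) : (1 : ℝ) ≤ N c := by
  exact_mod_cast hc.one_le_N

theorem PB_eq_empty {X : ℝ} (h : X < 1) : PB X = ∅ := by
  rw [eq_empty_iff_forall_notMem]
  intro c hc
  rw [mem_PB] at hc
  linarith [hc.1.one_le_N']

theorem one_mem_PB {X : ℝ} (h : 1 ≤ X) : (1 : O) ∈ PB X := by
  rw [mem_PB]; exact ⟨primary_one, by simpa using h⟩

/-! ### Crude counting -/

/-- `#{c primary : N c ≤ X} ≤ 4 X` -/
theorem card_PB_le {X : ℝ} (hX : 0 ≤ X) : ((PB X).card : ℝ) ≤ 4 * X := by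
  by_cases h1 : X < 1
  · rw [PB_eq_empty h1]; simpa using hX
  push Not at h1
  -- `c = (3 u + 1) + 3 v ω` with `|3u+1|, |3v| ≤ (2/√3) √X`
  set m : ℤ := ⌊Real.sqrt X * (2 / 5)⌋ with hm
  have hs : 1 ≤ Real.sqrt X := by
    rw [show (1 : ℝ) = Real.sqrt 1 by simp]
    exact Real.sqrt_le_sqrt h1
  have hXs : Real.sqrt X * Real.sqrt X = X := Real.mul_self_sqrt hX
  have hm0 : 0 ≤ m := by rw [hm]; positivity
  have hmle : (m : ℝ) ≤ Real.sqrt X * (2 / 5) := Int.floor_le _
  have hlt : Real.sqrt X * (2 / 5) < m + 1 := Int.lt_floor_add_one _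
  have hsub : PB X ⊆ (Finset.Icc (-m - 1) m ×ˢ Finset.Icc (-m) m).image
      (fun p : ℤ × ℤ => (⟨3 * p.1 + 1, 3 * p.2⟩ : O)) := by
    intro c hc
    rw [mem_PB] at hc
    obtain ⟨hc1, hc2⟩ := hc
    rw [primary_iff] at hc1
    obtain ⟨⟨u, hu⟩, ⟨v, hv⟩⟩ := hc1
    have h3 := four_N_ge_re c
    have h4 := four_N_ge_im c
    rw [show c.re = 3 * u + 1 by linarith] at h3
    rw [hv] at h4
    have h3' : (3 : ℝ) * (3 * u + 1) ^ 2 ≤ 4 * X := by
      have : ((3 * (3 * u + 1) ^ 2 : ℤ) : ℝ) ≤ ((4 * (N c : ℤ) : ℤ) : ℝ) := by exact_mod_cast h3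
      push_cast at this
      linarith
    have h4' : (3 : ℝ) * (3 * v) ^ 2 ≤ 4 * X := by
      have : ((3 * (3 * v) ^ 2 : ℤ) : ℝ) ≤ ((4 * (N c : ℤ) : ℤ) : ℝ) := by exact_mod_cast h4
      push_cast at this
      linarith
    have h5 : |(3 : ℝ) * u + 1| ≤ 6 / 5 * Real.sqrt X := by
      apply abs_le_of_sq_le_sq _ (by positivity)
      nlinarith
    have h6 : |(3 : ℝ) * v| ≤ 6 / 5 * Real.sqrt X := by
      apply abs_le_of_sq_le_sq _ (by positivity)
      nlinarith
    rw [abs_le] at h5 h6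
    have h7 : u < m + 1 := by
      have : (u : ℝ) < m + 1 := by linarith
      exact_mod_cast this
    have h8 : -(m + 1) - 1 < u := by
      have : (-(m + 1) - 1 : ℝ) < u := by linarith
      exact_mod_cast this
    have h9 : v < m + 1 := by
      have : (v : ℝ) < m + 1 := by linarith
      exact_mod_cast this
    have h10 : -(m + 1) < v := by
      have : (-(m + 1) : ℝ) < v := by linarith
      exact_mod_cast this
    rw [mem_image]
    refine ⟨(u, v), ?_, ?_⟩
    · rw [mem_product, Finset.mem_Icc, Finset.mem_Icc]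
      constructor <;> constructor <;> linarith
    · ext
      · simp; linarith
      · simp [hv]
  have h11 := (card_le_card hsub).trans card_image_le
  rw [card_product, Int.card_Icc, Int.card_Icc] at h11
  have h12 : ((PB X).card : ℝ) ≤ (2 * m + 2) * (2 * m + 1) := by
    have h13 : (((m + 1 - (-m - 1)).toNat * (m + 1 - -m).toNat : ℕ) : ℤ) =
        (2 * m + 2) * (2 * m + 1) := by
      push_cast
      rw [Int.toNat_of_nonneg (by linarith), Int.toNat_of_nonneg (by linarith)]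
      ring
    have h14 : ((PB X).card : ℤ) ≤ (2 * m + 2) * (2 * m + 1) := by
      rw [← h13]; exact_mod_cast h11
    exact_mod_cast h14
  have hmr : (0 : ℝ) ≤ m := by exact_mod_cast hm0
  refine h12.trans ?_
  by_cases hmz : m = 0
  · rw [hmz]; norm_num; linarith
  · have hm1 : (1 : ℝ) ≤ m := by
      have : 1 ≤ m := by omega
      exact_mod_cast this
    have h15 : 5 / 2 * (m : ℝ) ≤ Real.sqrt X := by linarith
    have h16 : (5 / 2 * (m : ℝ)) * (5 / 2 * m) ≤ Real.sqrt X * Real.sqrt X :=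
      mul_le_mul h15 h15 (by positivity) (by positivity)
    rw [hXs] at h16
    nlinarith

/-- `#{c primary : N c ≤ X} ≥ X / 100` for `X ≥ 1` -/
theorem card_PB_ge {X : ℝ} (hX : 1 ≤ X) : X / 100 ≤ ((PB X).card : ℝ) := by
  by_cases h1 : X < 100
  · have h2 : 1 ≤ (PB X).card := card_pos.2 ⟨1, one_mem_PB hX⟩
    have h3 : (1 : ℝ) ≤ (PB X).card := by exact_mod_cast h2
    linarith
  push Not at h1
  have hs : 10 ≤ Real.sqrt X := by
    rw [show (10 : ℝ) = Real.sqrt (10 ^ 2) by simp]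
    exact Real.sqrt_le_sqrt (by linarith)
  have hXs : Real.sqrt X * Real.sqrt X = X := Real.mul_self_sqrt (by linarith)
  set m : ℕ := ⌊Real.sqrt X / 9⌋₊ with hm
  have hmle : (m : ℝ) ≤ Real.sqrt X / 9 := Nat.floor_le (by positivity)
  have hlt : Real.sqrt X / 9 < m + 1 := Nat.lt_floor_add_one _
  have hsub : (Finset.range (m + 1) ×ˢ Finset.range (m + 1)).image
      (fun p : ℕ × ℕ => (⟨3 * p.1 + 1, 3 * p.2⟩ : O)) ⊆ PB X := by
    intro c hc
    rw [mem_image] at hc
    obtain ⟨⟨u, v⟩, h2, rfl⟩ := hc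
    rw [mem_product, Finset.mem_range, Finset.mem_range] at h2
    have hu : (u : ℝ) ≤ m := by exact_mod_cast (by omega : u ≤ m)
    have hv : (v : ℝ) ≤ m := by exact_mod_cast (by omega : v ≤ m)
    rw [mem_PB]
    constructor
    · rw [primary_iff]; simp
    · have h3 := N_cast_int' (⟨3 * u + 1, 3 * v⟩ : O)
      simp only at h3
      have h4 : ((N (⟨3 * u + 1, 3 * v⟩ : O) : ℕ) : ℝ) = (3 * u + 1) * (3 * u + 1) -
          (3 * u + 1) * (3 * v) + 3 * v * (3 * v) := by exact_mod_cast h3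
      rw [h4]
      have hu0 : (0 : ℝ) ≤ u := by positivity
      have hv0 : (0 : ℝ) ≤ v := by positivity
      have h5 : 3 * (u : ℝ) + 1 ≤ Real.sqrt X / 3 + 1 := by linarith
      have h6 : 3 * (v : ℝ) ≤ Real.sqrt X / 3 := by linarith
      have h7 : (3 * (u : ℝ) + 1) * (3 * u + 1) ≤ (Real.sqrt X / 3 + 1) * (Real.sqrt X / 3 + 1) :=
        mul_le_mul h5 h5 (by positivity) (by positivity)
      have h8 : 3 * (v : ℝ) * (3 * v) ≤ Real.sqrt X / 3 * (Real.sqrt X / 3) :=
        mul_le_mul h6 h6 (by positivity) (by positivity)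
      have h9 : 0 ≤ (3 * (u : ℝ) + 1) * (3 * v) := by positivity
      nlinarith
  have h2 := card_le_card hsub
  rw [card_image_of_injective, card_product, Finset.card_range] at h2
  · have h3 : ((m : ℝ) + 1) * (m + 1) ≤ (PB X).card := by exact_mod_cast h2
    have h4 : Real.sqrt X / 9 * (Real.sqrt X / 9) ≤ ((m : ℝ) + 1) * (m + 1) :=
      mul_le_mul hlt.le hlt.le (by positivity) (by positivity)
    nlinarith
  · rintro ⟨a, b⟩ ⟨c, d⟩ h
    simp only [QuadraticAlgebra.mk.injEq] at h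
    ext <;> simp <;> omega

/-! ### Primary divisors -/

/-- the primary divisors of `c` (for `c ≠ 0`) -/
noncomputable def dvs (c : O) : Finset O := (PB (N c)).filter (· ∣ c)

theorem mem_dvs {c d : O} (hc : c ≠ 0) : d ∈ dvs c ↔ Primary d ∧ d ∣ c := by
  rw [dvs, mem_filter, mem_PB]
  constructor
  · rintro ⟨⟨h1, _⟩, h2⟩; exact ⟨h1, h2⟩
  · rintro ⟨h1, h2⟩
    refine ⟨⟨h1, ?_⟩, h2⟩
    exact_mod_cast Nat.le_of_dvd (N_pos hc) (N_dvd_N h2)

/-- number of primary divisors -/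
noncomputable def tau (c : O) : ℕ := (dvs c).card

theorem Primary.one_mem_dvs {c : O} (hc : Primary c) : 1 ∈ dvs c := by
  rw [mem_dvs hc.ne_zero]; exact ⟨primary_one, one_dvd c⟩

theorem Primary.one_le_tau {c : O} (hc : Primary c) : 1 ≤ tau c :=
  card_pos.2 ⟨1, hc.one_mem_dvs⟩

theorem tau_le_of_dvd {c d : O} (hc : c ≠ 0) (h : d ∣ c) : tau d ≤ tau c := by
  apply card_le_card
  intro x hx
  have hd : d ≠ 0 := ne_zero_of_dvd_ne_zero hc h
  rw [mem_dvs hd] at hx
  rw [mem_dvs hc]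
  exact ⟨hx.1, hx.2.trans h⟩

theorem Primary.eq_of_associated {a b : O} (ha : Primary a) (hb : Primary b)
    (h : Associated a b) : a = b := by
  obtain ⟨u, hu⟩ := h
  have h1 : Primary (u : O) := ha.of_mul (by rw [hu]; exact hb)
  rw [h1.eq_one u.isUnit, mul_one] at hu
  exact hu

theorem Primary.eq_of_dvd_dvd {a b : O} (ha : Primary a) (hb : Primary b)
    (h : a ∣ b) (h' : b ∣ a) : a = b :=
  ha.eq_of_associated hb (associated_of_dvd_dvd h h')

theorem Primary.quot {a b c : O} (hc : Primary c) (ha : Primary a) (h : c = a * b) : Primary b :=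
  ha.of_mul (h ▸ hc)

/-- a primary divisor of a product of two primary elements splits -/
theorem Primary.exists_split {a b d : O} (ha : Primary a) (hd : Primary d)
    (h : d ∣ a * b) : ∃ d1 d2, Primary d1 ∧ Primary d2 ∧ d1 ∣ a ∧ d2 ∣ b ∧ d = d1 * d2 := by
  obtain ⟨x, y, hx, hy, hxy⟩ := exists_dvd_and_dvd_of_dvd_mul h
  have hl : ¬ lam ∣ x := fun h1 => ha.not_lam_dvd (h1.trans hx)
  obtain ⟨u, hu, hp⟩ := exists_unit_mul_primary hl
  obtain ⟨v, hv⟩ := hu
  refine ⟨u * x, ↑v⁻¹ * y, hp, ?_, ?_, ?_, ?_⟩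
  · apply hp.of_mul
    have : u * x * (↑v⁻¹ * y) = d := by
      rw [hxy, ← hv]
      have h3 : (v : O) * ↑v⁻¹ = 1 := v.mul_inv
      linear_combination (x * y) * h3
    rw [this]; exact hd
  · rw [← hv]
    exact (Units.mul_left_dvd (u := v)).2 hx
  · exact (Units.mul_left_dvd (u := v⁻¹)).2 hy
  · rw [hxy, ← hv]
    have h3 : (v : O) * ↑v⁻¹ = 1 := v.mul_inv
    linear_combination -(x * y) * h3

theorem tau_mul_le {a b : O} (ha : Primary a) (hb : Primary b) :
    tau (a * b) ≤ tau a * tau b := by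
  have hab : a * b ≠ 0 := (ha.mul hb).ne_zero
  unfold tau
  rw [← card_product]
  have hsub : dvs (a * b) ⊆ (dvs a ×ˢ dvs b).image (fun p => p.1 * p.2) := by
    intro d hd
    rw [mem_dvs hab] at hd
    obtain ⟨d1, d2, h1, h2, h3, h4, h5⟩ := ha.exists_split hd.1 hd.2
    rw [mem_image]
    refine ⟨(d1, d2), ?_, h5.symm⟩
    rw [mem_product, mem_dvs ha.ne_zero, mem_dvs hb.ne_zero]
    exact ⟨⟨h1, h3⟩, ⟨h2, h4⟩⟩
  exact (card_le_card hsub).trans card_image_le

/-- divisors of a power of a prime -/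
theorem tau_prime_pow_le {p : O} (hp : Prime p) (hpp : Primary p) (k : ℕ) :
    tau (p ^ k) ≤ k + 1 := by
  have hsub : dvs (p ^ k) ⊆ (Finset.range (k + 1)).image (fun i => p ^ i) := by
    intro d hd
    rw [mem_dvs (hpp.pow k).ne_zero] at hd
    obtain ⟨i, hi, hi2⟩ := (dvd_prime_pow hp k).1 hd.2
    rw [mem_image]
    refine ⟨i, by rw [Finset.mem_range]; omega, ?_⟩
    exact (hpp.pow i).eq_of_associated hd.1 hi2.symm
  have := (card_le_card hsub).trans card_image_le
  simpa [tau] using this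

theorem Prime.two_le_N {p : O} (hp : Prime p) : 2 ≤ N p := by
  have h1 : N p ≠ 1 := fun h => hp.not_isUnit (isUnit_iff_N.2 h)
  have h2 : 0 < N p := N_pos hp.ne_zero
  omega

/-- if all prime factors of `c` have norm `> M` with `2 ≤ M^ε`, then `τ(c) ≤ N(c)^ε`. -/
theorem tau_le_of_rough {ε M : ℝ} (hε : 0 < ε) (hM : 0 ≤ M) (h2 : 2 ≤ M ^ ε) :
    ∀ c : O, Primary c → (∀ p : O, Prime p → p ∣ c → M ≤ N p) → (tau c : ℝ) ≤ (N c : ℝ) ^ ε := by
  refine Primary.induction ?_ ?_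
  · intro _
    have : dvs 1 ⊆ {1} := by
      intro d hd
      rw [mem_dvs one_ne_zero] at hd
      rw [mem_singleton]
      exact hd.1.eq_one (isUnit_of_dvd_one hd.2)
    have h3 : tau 1 ≤ 1 := by simpa [tau] using card_le_card this
    have h4 : (tau 1 : ℝ) ≤ 1 := by exact_mod_cast h3
    simpa using h4
  · intro π b hπ hπp hb ih h
    have h1 := ih (fun p hp hpb => h p hp (hpb.mul_left _))
    have h3 : (tau (π * b) : ℝ) ≤ tau π * tau b := by exact_mod_cast tau_mul_le hπp hb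
    have h4 : (tau π : ℝ) ≤ 2 := by
      have := tau_prime_pow_le hπ hπp 1
      rw [pow_one] at this
      exact_mod_cast this
    have h5 : (2 : ℝ) ≤ (N π : ℝ) ^ ε :=
      h2.trans (Real.rpow_le_rpow hM (h π hπ (dvd_mul_right _ _)) hε.le)
    rw [N_mul, Nat.cast_mul, Real.mul_rpow (by positivity) (by positivity)]
    refine h3.trans (mul_le_mul (h4.trans h5) h1 (by positivity) (by positivity))

/-- splitting off finitely many primes -/
theorem exists_split_finset (S : Finset O) (hS : ∀ p ∈ S, Prime p ∧ Primary p) (c : O)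
    (hc : Primary c) : ∃ c' : O, Primary c' ∧ c' ∣ c ∧ (∀ p ∈ S, ¬ p ∣ c') ∧
      tau c ≤ (Nat.log 2 (N c) + 1) ^ S.card * tau c' := by
  classical
  induction S using Finset.induction_on with
  | empty => exact ⟨c, hc, dvd_rfl, by simp, by simp⟩
  | insert p S hpS ih =>
    obtain ⟨c', h1, h2, h3, h4⟩ := ih (fun q hq => hS q (mem_insert_of_mem hq))
    obtain ⟨hp, hpp⟩ := hS p (mem_insert_self _ _)
    obtain ⟨k, c'', hk, hcc⟩ := WfDvdMonoid.max_power_factor h1.ne_zero hp.irreducible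
    have h5 : Primary c'' := (hpp.pow k).of_mul (hcc ▸ h1)
    have h6 : c'' ∣ c' := ⟨p ^ k, by rw [hcc]; ring⟩
    refine ⟨c'', h5, h6.trans h2, ?_, ?_⟩
    · intro q hq
      rw [mem_insert] at hq
      rcases hq with rfl | hq
      · exact hk
      · exact fun h => h3 q hq (h.trans h6)
    · have h7 : tau c' ≤ (k + 1) * tau c'' := by
        rw [hcc]
        exact (tau_mul_le (hpp.pow k) h5).trans
          (Nat.mul_le_mul_right _ (tau_prime_pow_le hp hpp k))
      have h8 : k ≤ Nat.log 2 (N c) := by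
        apply Nat.le_log_of_pow_le (by norm_num)
        have h9 : N p ^ k ∣ N c := by
          rw [← N_pow]
          exact N_dvd_N ((dvd_mul_right _ _).trans (hcc ▸ h2))
        calc 2 ^ k ≤ N p ^ k := Nat.pow_le_pow_left (Prime.two_le_N hp) k
          _ ≤ N c := Nat.le_of_dvd (N_pos hc.ne_zero) h9
      rw [card_insert_of_notMem hpS, pow_succ]
      calc tau c ≤ (Nat.log 2 (N c) + 1) ^ S.card * tau c' := h4
        _ ≤ (Nat.log 2 (N c) + 1) ^ S.card * ((Nat.log 2 (N c) + 1) * tau c'') := by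
            apply Nat.mul_le_mul_left
            exact h7.trans (Nat.mul_le_mul_right _ (by omega))
        _ = _ := by ring

/-- **Divisor bound**: `τ(c) ≤ C_ε N(c)^ε`. -/
theorem exists_tau_le {ε : ℝ} (hε : 0 < ε) :
    ∃ C : ℝ, 1 ≤ C ∧ ∀ c : O, Primary c → (tau c : ℝ) ≤ C * (N c : ℝ) ^ ε := by
  classical
  -- half of `ε` for the small primes, half for the large ones
  set M : ℝ := 2 ^ (2 / ε) with hM
  have hM0 : 0 < M := by positivity
  have hM2 : 2 ≤ M ^ (ε / 2) := by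
    rw [hM, ← Real.rpow_mul (by norm_num)]
    rw [show 2 / ε * (ε / 2) = 1 by field_simp]
    simp
  set S : Finset O := (PB M).filter Prime with hS
  have hSp : ∀ p ∈ S, Prime p ∧ Primary p := by
    intro p hp
    rw [hS, mem_filter, mem_PB] at hp
    exact ⟨hp.2, hp.1.1⟩
  -- `(log₂ n + 1)^{|S|} ≤ C n^{ε/2}`
  obtain ⟨C, hC1, hC⟩ : ∃ C : ℝ, 1 ≤ C ∧ ∀ n : ℕ, 1 ≤ n →
      ((Nat.log 2 n + 1 : ℕ) : ℝ) ^ S.card ≤ C * (n : ℝ) ^ (ε / 2) := by
    set a : ℝ := ε / 2 / (S.card + 1) with ha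
    have ha0 : 0 < a := by positivity
    -- `log₂ n + 1 ≤ (1 + 2 / a) n^a`
    refine ⟨(1 + 2 / a) ^ S.card, one_le_pow₀ (by linarith [show 0 < 2 / a by positivity]), ?_⟩
    intro n hn
    have hn1 : (1 : ℝ) ≤ n := by exact_mod_cast hn
    have h1 : ((Nat.log 2 n : ℕ) : ℝ) ≤ Real.logb 2 n := by
      have := Real.natLog_le_logb n 2
      exact_mod_cast this
    have h2 : Real.logb 2 n ≤ 2 / a * (n : ℝ) ^ a := by
      rw [Real.logb, div_le_iff₀ (Real.log_pos (by norm_num))]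
      have h3 := Real.log_le_rpow_div (show (0 : ℝ) ≤ n by positivity) ha0
      have h4 : (1 : ℝ) / 2 ≤ Real.log 2 := by
        have := Real.log_two_gt_d9; linarith
      have h5 : (n : ℝ) ^ a / a = 2 / a * (n : ℝ) ^ a * (1 / 2) := by ring
      rw [h5] at h3
      refine h3.trans (mul_le_mul_of_nonneg_left h4 (by positivity))
    have h3 : (1 : ℝ) ≤ (n : ℝ) ^ a := Real.one_le_rpow hn1 ha0.le
    have h4 : ((Nat.log 2 n + 1 : ℕ) : ℝ) ≤ (1 + 2 / a) * (n : ℝ) ^ a := by
      push_cast; nlinarith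
    calc ((Nat.log 2 n + 1 : ℕ) : ℝ) ^ S.card ≤ ((1 + 2 / a) * (n : ℝ) ^ a) ^ S.card :=
          pow_le_pow_left₀ (by positivity) h4 _
      _ = (1 + 2 / a) ^ S.card * (n : ℝ) ^ (a * S.card) := by
          rw [mul_pow, ← Real.rpow_natCast ((n : ℝ) ^ a), ← Real.rpow_mul (by positivity)]
      _ ≤ _ := by
          apply mul_le_mul_of_nonneg_left _ (by positivity)
          apply Real.rpow_le_rpow_of_exponent_le hn1
          rw [ha, div_mul_eq_mul_div, div_le_iff₀ (by positivity)]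
          nlinarith
  refine ⟨C, hC1, ?_⟩
  intro c hc
  obtain ⟨c', h1, h2, h3, h4⟩ := exists_split_finset S hSp c hc
  have h5 : (tau c' : ℝ) ≤ (N c' : ℝ) ^ (ε / 2) := by
    apply tau_le_of_rough (by positivity) hM0.le hM2 c' h1
    intro p hp hpc
    by_contra hlt
    push Not at hlt
    have hl : ¬ lam ∣ p := fun h => h1.not_lam_dvd (h.trans hpc)
    obtain ⟨u, hu, hpu⟩ := exists_unit_mul_primary hl
    have has : Associated p (u * p) := associated_unit_mul_right p u hu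
    refine h3 (u * p) ?_ (has.symm.dvd.trans hpc)
    rw [hS, mem_filter, mem_PB]
    refine ⟨⟨hpu, ?_⟩, has.prime hp⟩
    rw [← N_eq_of_associated has]
    exact hlt.le
  have h6 : (N c' : ℝ) ≤ N c := by
    exact_mod_cast Nat.le_of_dvd (N_pos hc.ne_zero) (N_dvd_N h2)
  have h7 := hC (N c) hc.one_le_N
  calc (tau c : ℝ) ≤ ((Nat.log 2 (N c) + 1 : ℕ) : ℝ) ^ S.card * tau c' := by exact_mod_cast h4
    _ ≤ (C * (N c : ℝ) ^ (ε / 2)) * (N c : ℝ) ^ (ε / 2) := by
        refine mul_le_mul h7 (h5.trans ?_) (by positivity) (by positivity)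
        exact Real.rpow_le_rpow (by positivity) h6 (by positivity)
    _ = C * (N c : ℝ) ^ ε := by
        rw [mul_assoc, ← Real.rpow_add (by exact_mod_cast hc.one_le_N)]
        congr 2; ring

end Vale.Agent.P006
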