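import Vale.Agent.P006.H845.Sums

/-!
P006, block ROUGH (helper845): squarefree primary elements as products of finite sets of primary
primes; the Moebius function; Euler's function quotient.
-/

namespace Vale.Agent.P006

open Finset

/-- `S` is a finite set of primary primes -/
def IsPSet (S : Finset O) : Prop := ∀ p ∈ S, Prime p ∧ Primary p

theorem IsPSet.mono {S T : Finset O} (hT : IsPSet T) (h : S ⊆ T) : IsPSet S :=
  fun p hp => hT p (h hp)

theorem isPSet_pdv {c : O} (hc : c ≠ 0) : IsPSet (pdv c) := by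
  intro p hp
  rw [mem_pdv hc] at hp
  exact ⟨hp.2.1, hp.1⟩

theorem IsPSet.union {S T : Finset O} (hS : IsPSet S) (hT : IsPSet T) : IsPSet (S ∪ T) := by
  intro p hp
  rw [mem_union] at hp
  rcases hp with h | h
  · exact hS p h
  · exact hT p h

/-- product of a finite set of primes -/
noncomputable def pr (S : Finset O) : O := ∏ p ∈ S, p

@[simp] theorem pr_empty : pr ∅ = 1 := by simp [pr]

theorem pr_insert {p : O} {S : Finset O} (h : p ∉ S) : pr (insert p S) = p * pr S := by
  simp [pr, prod_insert h]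

theorem N_pr (S : Finset O) : N (pr S) = ∏ p ∈ S, N p := by
  classical
  induction S using Finset.induction_on with
  | empty => simp
  | insert p S hp ih => rw [pr_insert hp, N_mul, ih, prod_insert hp]

theorem primary_pr {S : Finset O} (hS : IsPSet S) : Primary (pr S) := by
  classical
  induction S using Finset.induction_on with
  | empty => simpa using primary_one
  | insert p S hp ih =>
    rw [pr_insert hp]
    exact (hS p (mem_insert_self _ _)).2.mul (ih (hS.mono (subset_insert _ _)))

theorem pdv_pr {S : Finset O} (hS : IsPSet S) : pdv (pr S) = S := by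
  classical
  induction S using Finset.induction_on with
  | empty => simpa using pdv_one
  | insert p S hp ih =>
    have h1 := hS p (mem_insert_self _ _)
    have h2 := hS.mono (subset_insert p S)
    rw [pr_insert hp, pdv_mul h1.2 (primary_pr h2), ih h2, pdv_prime h1.1 h1.2]
    rfl

theorem squarefree_pr {S : Finset O} (hS : IsPSet S) : Squarefree (pr S) := by
  classical
  induction S using Finset.induction_on with
  | empty => simp
  | insert p S hp ih =>
    have h1 := hS p (mem_insert_self _ _)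
    have h2 := hS.mono (subset_insert p S)
    rw [pr_insert hp]
    refine squarefree_prime_mul h1.1 (ih h2) ?_
    intro h
    have h3 : p ∈ pdv (pr S) := (mem_pdv (primary_pr h2).ne_zero).2 ⟨h1.2, h1.1, h⟩
    rw [pdv_pr h2] at h3
    exact hp h3

/-- `∏ S ∣ c` iff `S ⊆ pdv c` -/
theorem pr_dvd_iff {S : Finset O} (hS : IsPSet S) {c : O} (hc : c ≠ 0) :
    pr S ∣ c ↔ S ⊆ pdv c := by
  constructor
  · intro h
    have := pdv_of_dvd hc h
    rwa [pdv_pr hS] at this
  · classical
    induction S using Finset.induction_on with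
    | empty => intro _; simp
    | insert p S hp ih =>
      intro h
      have h1 := hS p (mem_insert_self _ _)
      have h2 := hS.mono (subset_insert p S)
      have h3 := ih h2 ((subset_insert p S).trans h)
      have h4 : p ∣ c := ((mem_pdv hc).1 (h (mem_insert_self _ _))).2.2
      rw [pr_insert hp]
      have h5 : IsRelPrime p (pr S) := by
        rw [h1.1.irreducible.isRelPrime_iff_not_dvd]
        intro h6
        have h7 : p ∈ pdv (pr S) := (mem_pdv (primary_pr h2).ne_zero).2 ⟨h1.2, h1.1, h6⟩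
        rw [pdv_pr h2] at h7
        exact hp h7
      exact h5.mul_dvd h4 h3

/-- a squarefree primary element is the product of its prime divisors -/
theorem pr_pdv : ∀ c : O, Primary c → Squarefree c → pr (pdv c) = c := by
  refine Primary.induction ?_ ?_
  · intro _; rw [pdv_one]; simp
  · intro p b hp hpp hb ih hs
    have h1 : Squarefree b := hs.squarefree_of_dvd (dvd_mul_left _ _)
    have h2 : p ∉ pdv b := by
      intro h
      rw [mem_pdv hb.ne_zero] at h
      exact hp.not_isUnit (hs p (mul_dvd_mul_left p h.2.2))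
    rw [pdv_mul hpp hb, pdv_prime hp hpp]
    have h3 : ({p} : Finset O) ∪ pdv b = insert p (pdv b) := rfl
    rw [h3, pr_insert h2, ih h1]

theorem sqf_ext {a b : O} (ha : Primary a) (hb : Primary b) (hsa : Squarefree a)
    (hsb : Squarefree b) (h : pdv a = pdv b) : a = b := by
  rw [← pr_pdv a ha hsa, ← pr_pdv b hb hsb, h]

theorem dvd_iff_pdv_subset {a b : O} (ha : Primary a) (hsa : Squarefree a) (hb : b ≠ 0) :
    a ∣ b ↔ pdv a ⊆ pdv b := by
  conv_lhs => rw [← pr_pdv a ha hsa]
  exact pr_dvd_iff (isPSet_pdv ha.ne_zero) hb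

/-! ### Coprimality -/

theorem isRelPrime_iff_disjoint_pdv {a b : O} (ha : Primary a) (hb : Primary b) :
    IsRelPrime a b ↔ Disjoint (pdv a) (pdv b) := by
  rw [Finset.disjoint_left]
  constructor
  · intro h p hp hpb
    rw [mem_pdv ha.ne_zero] at hp
    rw [mem_pdv hb.ne_zero] at hpb
    exact hp.2.1.not_isUnit (h hp.2.2 hpb.2.2)
  · intro h d hda hdb
    by_contra hu
    obtain ⟨p, hp, hpp, hpd⟩ := exists_primary_prime_dvd ha hda hu
    exact h ((mem_pdv ha.ne_zero).2 ⟨hp, hpp, hpd.trans hda⟩)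
      ((mem_pdv hb.ne_zero).2 ⟨hp, hpp, hpd.trans hdb⟩)

theorem isCoprime_iff_disjoint_pdv {a b : O} (ha : Primary a) (hb : Primary b) :
    IsCoprime a b ↔ Disjoint (pdv a) (pdv b) := by
  rw [← isRelPrime_iff_disjoint_pdv ha hb]
  exact isRelPrime_iff_isCoprime.symm

theorem squarefree_mul_iff' {a b : O} (ha : Primary a) (hb : Primary b) :
    Squarefree (a * b) ↔ IsCoprime a b ∧ Squarefree a ∧ Squarefree b := by
  rw [squarefree_mul_iff, isRelPrime_iff_isCoprime]

/-! ### The Moebius function -/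

open Classical in
/-- the Moebius function on primary elements -/
noncomputable def moeb (c : O) : ℤ := if Squarefree c then (-1) ^ (pdv c).card else 0

theorem moeb_one : moeb 1 = 1 := by simp [moeb, pdv_one]

theorem moeb_of_squarefree {c : O} (h : Squarefree c) : moeb c = (-1) ^ (pdv c).card := by
  simp [moeb, h]

theorem moeb_of_not_squarefree {c : O} (h : ¬ Squarefree c) : moeb c = 0 := by
  simp [moeb, h]

theorem moeb_pr {S : Finset O} (hS : IsPSet S) : moeb (pr S) = (-1) ^ S.card := by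
  rw [moeb_of_squarefree (squarefree_pr hS), pdv_pr hS]

theorem abs_moeb_le (c : O) : |moeb c| ≤ 1 := by
  by_cases h : Squarefree c
  · rw [moeb_of_squarefree h, abs_pow]; simp
  · rw [moeb_of_not_squarefree h]; simp

theorem moeb_mul {a b : O} (ha : Primary a) (hb : Primary b) (h : IsCoprime a b) :
    moeb (a * b) = moeb a * moeb b := by
  by_cases h1 : Squarefree (a * b)
  · have h2 := (squarefree_mul_iff' ha hb).1 h1
    rw [moeb_of_squarefree h1, moeb_of_squarefree h2.2.1, moeb_of_squarefree h2.2.2,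
      pdv_mul ha hb, card_union_of_disjoint ((isCoprime_iff_disjoint_pdv ha hb).1 h), pow_add]
  · rw [moeb_of_not_squarefree h1]
    by_cases h2 : Squarefree a
    · have h3 : ¬ Squarefree b := fun h3 => h1 ((squarefree_mul_iff' ha hb).2 ⟨h, h2, h3⟩)
      rw [moeb_of_not_squarefree h3, mul_zero]
    · rw [moeb_of_not_squarefree h2, zero_mul]

/-- sums over the squarefree divisors are sums over the subsets of the prime divisors -/
theorem sum_sqf_dvs {M : Type*} [AddCommMonoid M] {c : O} (hc : Primary c) (F : O → M)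
    (hF : ∀ d, Primary d → ¬ Squarefree d → F d = 0) :
    ∑ d ∈ dvs c, F d = ∑ S ∈ (pdv c).powerset, F (pr S) := by
  classical
  have h1 : ∑ d ∈ dvs c, F d = ∑ d ∈ (dvs c).filter Squarefree, F d := by
    symm
    apply sum_subset (filter_subset _ _)
    intro d hd hd2
    rw [mem_filter, not_and] at hd2
    rw [mem_dvs hc.ne_zero] at hd
    exact hF d hd.1 (hd2 ((mem_dvs hc.ne_zero).2 hd))
  rw [h1]
  symm
  have hP : ∀ S ∈ (pdv c).powerset, IsPSet S := fun S hS =>
    (isPSet_pdv hc.ne_zero).mono (mem_powerset.1 hS)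
  refine sum_bij' (fun S _ => pr S) (fun d _ => pdv d) ?_ ?_ ?_ ?_ ?_
  · intro S hS
    have h2 := hP S hS
    rw [mem_powerset] at hS
    rw [mem_filter, mem_dvs hc.ne_zero]
    exact ⟨⟨primary_pr h2, (pr_dvd_iff h2 hc.ne_zero).2 hS⟩, squarefree_pr h2⟩
  · intro d hd
    rw [mem_filter, mem_dvs hc.ne_zero] at hd
    rw [mem_powerset]
    exact pdv_of_dvd hc.ne_zero hd.1.2
  · intro S hS; exact pdv_pr (hP S hS)
  · intro d hd
    rw [mem_filter, mem_dvs hc.ne_zero] at hd
    exact pr_pdv d hd.1.1 hd.2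
  · intro S _; rfl

/-- Moebius inversion: `∑_{d | c} μ(d) = [c = 1]` -/
theorem sum_moeb_dvs {c : O} (hc : Primary c) :
    ∑ d ∈ dvs c, moeb d = if c = 1 then 1 else 0 := by
  rw [sum_sqf_dvs hc moeb (fun d _ h => moeb_of_not_squarefree h)]
  have h1 : ∀ S ∈ (pdv c).powerset, moeb (pr S) = (-1) ^ S.card := fun S hS =>
    moeb_pr ((isPSet_pdv hc.ne_zero).mono (mem_powerset.1 hS))
  rw [sum_congr rfl h1, sum_powerset_neg_one_pow_card]
  by_cases h2 : c = 1
  · subst h2; simp [pdv_one]
  · have h3 : pdv c ≠ ∅ := (pdv_nonempty hc h2).ne_empty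
    simp [h2, h3]

open Classical in
/-- coprimality by Moebius: `∑_{d | a, d | b} μ(d) = [(a,b) = 1]` -/
theorem sum_moeb_common {a b : O} (ha : Primary a) (hb : Primary b) :
    ∑ d ∈ (dvs a).filter (· ∣ b), moeb d = if IsCoprime a b then 1 else 0 := by
  classical
  rw [sum_filter, sum_sqf_dvs ha (fun d => if d ∣ b then moeb d else 0)]
  · have h0 : ∀ S ∈ (pdv a).powerset, (if pr S ∣ b then moeb (pr S) else 0) =
        if S ⊆ pdv b then (-1) ^ S.card else 0 := by
      intro S hS
      have h1 : IsPSet S := (isPSet_pdv ha.ne_zero).mono (mem_powerset.1 hS)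
      rw [moeb_pr h1]
      simp only [pr_dvd_iff h1 hb.ne_zero]
    rw [sum_congr rfl h0, ← sum_filter]
    have h2 : (pdv a).powerset.filter (· ⊆ pdv b) = (pdv a ∩ pdv b).powerset := by
      ext S
      simp only [mem_filter, mem_powerset, subset_inter_iff]
    rw [h2, sum_powerset_neg_one_pow_card]
    simp only [isCoprime_iff_disjoint_pdv ha hb, disjoint_iff_inter_eq_empty]
  · intro d _ hd
    rw [moeb_of_not_squarefree hd]; simp

/-! ### Euler's quotient `φ(c) / N(c)` -/

/-- `φ(c) / N(c) = ∏_{p | c} (1 - 1 / N p)` -/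
noncomputable def phiq (c : O) : ℝ := ∏ p ∈ pdv c, (1 - (N p : ℝ)⁻¹)

theorem one_sub_inv_N_pos {p : O} (hp : Prime p) : 0 < 1 - (N p : ℝ)⁻¹ := by
  have h : (2 : ℝ) ≤ N p := by exact_mod_cast Prime.two_le_N hp
  have : (N p : ℝ)⁻¹ ≤ 2⁻¹ := inv_anti₀ (by norm_num) h
  linarith

theorem phiq_pos {c : O} (hc : c ≠ 0) : 0 < phiq c :=
  prod_pos fun p hp => one_sub_inv_N_pos ((mem_pdv hc).1 hp).2.1

theorem phiq_le_one {c : O} (hc : c ≠ 0) : phiq c ≤ 1 := by
  apply prod_le_one
  · intro p hp; exact (one_sub_inv_N_pos ((mem_pdv hc).1 hp).2.1).le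
  · intro p hp
    have : (0 : ℝ) ≤ (N p : ℝ)⁻¹ := by positivity
    linarith

theorem phiq_pr {S : Finset O} (hS : IsPSet S) : phiq (pr S) = ∏ p ∈ S, (1 - (N p : ℝ)⁻¹) := by
  rw [phiq, pdv_pr hS]

theorem phiq_mul {a b : O} (ha : Primary a) (hb : Primary b) (h : IsCoprime a b) :
    phiq (a * b) = phiq a * phiq b := by
  rw [phiq, phiq, phiq, pdv_mul ha hb, prod_union ((isCoprime_iff_disjoint_pdv ha hb).1 h)]

/-- `φ(c) / N(c) = ∑_{d | c} μ(d) / N(d)` -/
theorem phiq_eq_sum {c : O} (hc : Primary c) :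
    phiq c = ∑ d ∈ dvs c, (moeb d : ℝ) / N d := by
  rw [sum_sqf_dvs hc (fun d => (moeb d : ℝ) / N d)]
  · have h1 : ∀ S ∈ (pdv c).powerset, (moeb (pr S) : ℝ) / N (pr S) =
        ∏ p ∈ S, (-(N p : ℝ)⁻¹) := by
      intro S hS
      have h2 : IsPSet S := (isPSet_pdv hc.ne_zero).mono (mem_powerset.1 hS)
      rw [moeb_pr h2, N_pr]
      push_cast
      rw [div_eq_mul_inv, ← prod_inv_distrib]
      have : ∀ p ∈ S, -(N p : ℝ)⁻¹ = (-1) * (N p : ℝ)⁻¹ := fun p _ => by ring
      rw [prod_congr rfl this, prod_mul_distrib, prod_const]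
    rw [sum_congr rfl h1, phiq]
    have h3 : ∀ p ∈ pdv c, (1 - (N p : ℝ)⁻¹) = -(N p : ℝ)⁻¹ + 1 := fun p _ => by ring
    rw [prod_congr rfl h3, prod_add_one]
  · intro d _ hd
    rw [moeb_of_not_squarefree hd]; simp

end Vale.Agent.P006
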