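import Vale.Agent.P006.H845.PNT
import Vale.Agent.P006.CR.Kummer
import Vale.Agent.P006.Main.Defs

/-!
P006 PR4 (helper845): last implication. If the sum over primary primes of
`wf = g̃(1,·) - cStar N(·)^(-1/6)` is `o(X^{5/6}/log X)`, then Patterson's asymptotic formula holds in
both forms (primary primes and rational primes).
-/

namespace Vale.Agent.P006

open Finset Filter Topology

theorem cstar_eq_cStar : cstar = cStar := rfl

theorem primaryPrimes_eq_PP (X : ℝ) : primaryPrimes ⌊X⌋₊ = PP X := by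
  ext π
  rw [mem_primaryPrimes, mem_PP']
  tauto

theorem inP_of_prime {π : O} (h1 : Primary π) (h2 : Prime π) : InP π := ⟨h1, h2.squarefree⟩

theorem sum_wf_PP (X : ℝ) :
    ∑ π ∈ PP X, wf π = ∑ π ∈ PP X, gt 1 π -
      ((cStar * ∑ π ∈ PP X, (N π : ℝ) ^ (-(1 / 6) : ℝ) : ℝ) : ℂ) := by
  rw [mul_sum]
  push_cast
  rw [← sum_sub_distrib]
  refine sum_congr rfl fun π hπ => ?_
  rw [mem_PP] at hπ
  rw [wf_of (inP_of_prime hπ.1.1 hπ.2)]
  push_cast
  rfl

/-- primary-prime form -/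
theorem primary_form_of_wf
    (h : Tendsto (fun X : ℝ => (∑ π ∈ PP X, wf π) * ((Real.log X / X ^ ((5 : ℝ) / 6) : ℝ) : ℂ))
      atTop (𝓝 0)) :
    Tendsto (fun X : ℝ => (∑ π ∈ PP X, gt 1 π) * ((Real.log X / X ^ ((5 : ℝ) / 6) : ℝ) : ℂ))
      atTop (𝓝 ((6 / 5 * cStar : ℝ) : ℂ)) := by
  have h1 := tendsto_model.const_mul cStar
  have h2 : Tendsto (fun X : ℝ => ((cStar * ((∑ π ∈ PP X, (N π : ℝ) ^ (-(1 / 6) : ℝ)) *
      (Real.log X / X ^ (5 / 6 : ℝ))) : ℝ) : ℂ)) atTop (𝓝 ((cStar * (6 / 5) : ℝ) : ℂ)) :=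
    (Complex.continuous_ofReal.tendsto _).comp h1
  have h3 := h.add h2
  rw [zero_add, mul_comm cStar] at h3
  refine h3.congr fun X => ?_
  rw [sum_wf_PP]
  push_cast
  ring

/-- the same from the norm version -/
theorem primary_form_of_norm
    (h : Tendsto (fun X : ℝ => ‖∑ π ∈ PP X, wf π‖ / (X ^ ((5 : ℝ) / 6) / Real.log X))
      atTop (𝓝 0)) :
    Tendsto (fun X : ℝ => (∑ π ∈ PP X, gt 1 π) * ((Real.log X / X ^ ((5 : ℝ) / 6) : ℝ) : ℂ))
      atTop (𝓝 ((6 / 5 * cStar : ℝ) : ℂ)) := by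
  apply primary_form_of_wf
  rw [tendsto_zero_iff_norm_tendsto_zero]
  refine h.congr' ?_
  filter_upwards [eventually_gt_atTop 1] with X hX
  have hl : 0 < Real.log X := Real.log_pos hX
  have hX0 : 0 < X ^ ((5 : ℝ) / 6) := Real.rpow_pos_of_pos (by linarith) _
  rw [norm_mul, Complex.norm_real, Real.norm_of_nonneg (by positivity)]
  field_simp

/-- **rational-prime form** with Mathlib notions only: the conclusion of Q1 of P006 -/
theorem kummer_form_of_wf
    (h : Tendsto (fun X : ℝ => (∑ π ∈ PP X, wf π) * ((Real.log X / X ^ ((5 : ℝ) / 6) : ℝ) : ℂ))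
      atTop (𝓝 0)) :
    Tendsto (fun X : ℝ => (∑ p ∈ (Finset.range (⌊X⌋₊ + 1)).filter (fun p => p.Prime ∧ p % 3 = 1),
        (∑ x ∈ Finset.range p, Real.cos (2 * Real.pi * (x : ℝ) ^ 3 / p)) / (2 * Real.sqrt p)) *
        (Real.log X / X ^ ((5 : ℝ) / 6))) atTop
      (𝓝 ((2 * Real.pi) ^ ((2 : ℝ) / 3) / (5 * Real.Gamma (2 / 3)))) := by
  have h1 := primary_form_of_wf h
  have h2 := kummer_tendsto_of (by
    refine h1.congr fun X => ?_
    rw [primaryPrimes_eq_PP])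
  exact h2

end Vale.Agent.P006
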