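import Vale.Agent.P006.H845.Req
import Vale.Agent.P006.H103.Defs

/-!
P006, block ROUGH (helper845): the two counting inputs of the final sieve step.
-/

namespace Vale.Agent.P006

open Finset

theorem dens_eq_phiq (W : O) : dens W = phiq W := by
  unfold dens phiq
  exact prod_congr rfl fun p _ => by rw [one_div]

theorem roughCount {η : ℝ} (hη : 0 < η) : RoughCount η := by
  obtain ⟨C, hC, h⟩ := card_sqf_rough_rpow_le hη
  exact ⟨C, by linarith, fun X y hX hy _ => h X y hX hy⟩

theorem densZero : DensZero := by
  intro ε hε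
  obtain ⟨W, h1, h2, h3⟩ := exists_phiq_lt hε
  exact ⟨W, h1, h2, by rw [dens_eq_phiq]; exact h3⟩

end Vale.Agent.P006
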