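import Mathlib.Algebra.BigOperators.Ring.Finset
import Mathlib.Algebra.Order.BigOperators.Ring.Finset
import Mathlib.Data.Real.Basic
import Mathlib.Tactic

/-!
P006, block PNT-ROUGH (helper845): Selberg's upper bound sieve, abstract form.

Squarefree divisors are finite subsets `S` of a finite set `P` of primes; a prime `p` has a
real size `q p > 1` and density `1 / q p`.
-/

namespace Vale.Agent.P006.Selberg

open Finset

set_option linter.unusedSectionVars false
set_option linter.unusedVariables false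

variable {ι : Type*} [DecidableEq ι]

/-- size of a squarefree divisor -/
noncomputable def wt (q : ι → ℝ) (S : Finset ι) : ℝ := ∏ p ∈ S, q p

/-- Selberg's `g(d) = 1 / φ(d)` -/
noncomputable def gt (q : ι → ℝ) (S : Finset ι) : ℝ := ∏ p ∈ S, (q p - 1)⁻¹

/-- the squarefree divisors of size at most `D` -/
noncomputable def fam (P : Finset ι) (q : ι → ℝ) (D : ℝ) : Finset (Finset ι) :=
  P.powerset.filter (fun S => wt q S ≤ D)

/-- `L = ∑_{d ≤ D} 1 / φ(d)` -/
noncomputable def LL (P : Finset ι) (q : ι → ℝ) (D : ℝ) : ℝ := ∑ T ∈ fam P q D, gt q T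

/-- Selberg's weights -/
noncomputable def lam (P : Finset ι) (q : ι → ℝ) (D : ℝ) (S : Finset ι) : ℝ :=
  (-1) ^ S.card * wt q S / LL P q D * ∑ T ∈ (fam P q D).filter (S ⊆ ·), gt q T

variable {P : Finset ι} {q : ι → ℝ} {D : ℝ}

lemma mem_fam {S : Finset ι} : S ∈ fam P q D ↔ S ⊆ P ∧ wt q S ≤ D := by
  simp [fam]

lemma wt_pos (hq : ∀ p ∈ P, 1 < q p) {S : Finset ι} (hS : S ⊆ P) : 0 < wt q S :=
  prod_pos fun p hp => by linarith [hq p (hS hp)]

lemma one_le_wt (hq : ∀ p ∈ P, 1 < q p) {S : Finset ι} (hS : S ⊆ P) : 1 ≤ wt q S := by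
  unfold wt
  calc (1 : ℝ) = ∏ p ∈ S, (1 : ℝ) := by simp
    _ ≤ ∏ p ∈ S, q p := prod_le_prod (fun _ _ => zero_le_one) fun p hp => (hq p (hS hp)).le

lemma gt_pos (hq : ∀ p ∈ P, 1 < q p) {S : Finset ι} (hS : S ⊆ P) : 0 < gt q S :=
  prod_pos fun p hp => inv_pos.2 (by linarith [hq p (hS hp)])

lemma wt_mono (hq : ∀ p ∈ P, 1 < q p) {S T : Finset ι} (hST : S ⊆ T) (hT : T ⊆ P) :
    wt q S ≤ wt q T := by
  unfold wt
  rw [← prod_sdiff hST]
  have h1 : 1 ≤ ∏ p ∈ T \ S, q p := one_le_wt hq (sdiff_subset.trans hT)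
  have h2 : 0 < ∏ p ∈ S, q p := wt_pos hq (hST.trans hT)
  nlinarith

lemma wt_empty : wt q (∅ : Finset ι) = 1 := by simp [wt]

lemma gt_empty : gt q (∅ : Finset ι) = 1 := by simp [gt]

lemma empty_mem_fam (hD : 1 ≤ D) : (∅ : Finset ι) ∈ fam P q D := by
  rw [mem_fam]; simpa [wt_empty] using hD

lemma LL_pos (hq : ∀ p ∈ P, 1 < q p) (hD : 1 ≤ D) : 0 < LL P q D := by
  unfold LL
  exact sum_pos (fun T hT => gt_pos hq (mem_fam.1 hT).1) ⟨∅, empty_mem_fam hD⟩

lemma lam_empty (hq : ∀ p ∈ P, 1 < q p) (hD : 1 ≤ D) : lam P q D ∅ = 1 := by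
  have h := LL_pos hq hD
  have h2 : (fam P q D).filter (∅ ⊆ ·) = fam P q D := by
    apply filter_true_of_mem
    intros; simp
  unfold lam
  rw [h2, wt_empty]
  simp only [card_empty, pow_zero, mul_one, one_div]
  exact inv_mul_cancel₀ h.ne'

lemma lam_eq_zero (hq : ∀ p ∈ P, 1 < q p) {S : Finset ι} (h : S ∉ fam P q D) :
    lam P q D S = 0 := by
  unfold lam
  have : (fam P q D).filter (S ⊆ ·) = ∅ := by
    rw [filter_eq_empty_iff]
    intro T hT hST
    rw [mem_fam] at hT
    exact h (mem_fam.2 ⟨hST.trans hT.1, (wt_mono hq hST hT.1).trans hT.2⟩)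
  rw [this]; simp

/-- `∑_{V ⊆ S} 1/φ(V) = |S|/φ(S)` -/
lemma sum_gt_powerset (hq : ∀ p ∈ P, 1 < q p) {S : Finset ι} (hS : S ⊆ P) :
    ∑ V ∈ S.powerset, gt q V = wt q S * gt q S := by
  unfold gt wt
  rw [← prod_mul_distrib]
  rw [show ∏ p ∈ S, (q p * (q p - 1)⁻¹) = ∏ p ∈ S, ((q p - 1)⁻¹ + 1) from ?_]
  · rw [prod_add_one]
  · refine prod_congr rfl fun p hp => ?_
    have : q p - 1 ≠ 0 := by linarith [hq p (hS hp)]
    field_simp
    ring

/-- `|S| = ∑_{V ⊆ S} φ(V)` -/
lemma sum_gt_inv_powerset (S : Finset ι) :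
    ∑ V ∈ S.powerset, (gt q V)⁻¹ = wt q S := by
  unfold gt wt
  have : ∀ V : Finset ι, (∏ p ∈ V, (q p - 1)⁻¹)⁻¹ = ∏ p ∈ V, (q p - 1) := by
    intro V; rw [← prod_inv_distrib]; simp
  simp_rw [this]
  rw [← prod_add_one]
  simp

/-- the key estimate `|λ(S)| ≤ 1` -/
lemma wt_mul_sum_le (hq : ∀ p ∈ P, 1 < q p) {S : Finset ι} (hS : S ⊆ P) :
    wt q S * ∑ T ∈ (fam P q D).filter (S ⊆ ·), gt q T ≤ LL P q D := by
  -- the sets `U` disjoint from `S` with `|U| ≤ D / |S|`
  set F := (fam P q D).filter (S ⊆ ·) with hF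
  have hinj : ∀ x ∈ S.powerset ×ˢ F, ∀ y ∈ S.powerset ×ˢ F,
      (x.1 ∪ (x.2 \ S)) = (y.1 ∪ (y.2 \ S)) → x = y := by
    rintro ⟨V, T⟩ h1 ⟨V', T'⟩ h2 h
    simp only [mem_product, mem_powerset, hF, mem_filter] at h1 h2
    simp only at h
    have hV : V = V' := by
      ext p
      have := congrArg (p ∈ ·) h
      simp only [mem_union, mem_sdiff, eq_iff_iff] at this
      constructor
      · intro hp
        rcases this.1 (Or.inl hp) with h3 | h3
        · exact h3
        · exact absurd (h1.1 hp) h3.2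
      · intro hp
        rcases this.2 (Or.inl hp) with h3 | h3
        · exact h3
        · exact absurd (h2.1 hp) h3.2
    have hT : T = T' := by
      ext p
      have := congrArg (p ∈ ·) h
      simp only [mem_union, mem_sdiff, eq_iff_iff] at this
      by_cases hpS : p ∈ S
      · exact ⟨fun _ => h2.2.2 hpS, fun _ => h1.2.2 hpS⟩
      · constructor
        · intro hp
          rcases this.1 (Or.inr ⟨hp, hpS⟩) with h3 | h3
          · exact absurd (h2.1 h3) hpS
          · exact h3.1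
        · intro hp
          rcases this.2 (Or.inr ⟨hp, hpS⟩) with h3 | h3
          · exact absurd (h1.1 h3) hpS
          · exact h3.1
    rw [hV, hT]
  have himg : (S.powerset ×ˢ F).image (fun x => x.1 ∪ (x.2 \ S)) ⊆ fam P q D := by
    intro U hU
    rw [mem_image] at hU
    obtain ⟨⟨V, T⟩, h1, rfl⟩ := hU
    simp only [mem_product, mem_powerset, hF, mem_filter, mem_fam] at h1
    rw [mem_fam]
    have hsub : V ∪ T \ S ⊆ T := union_subset (h1.1.trans h1.2.2) sdiff_subset
    exact ⟨hsub.trans h1.2.1.1, (wt_mono hq hsub h1.2.1.1).trans h1.2.1.2⟩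
  have hval : ∀ x ∈ S.powerset ×ˢ F, gt q (x.1 ∪ (x.2 \ S)) = gt q x.1 * gt q (x.2 \ S) := by
    rintro ⟨V, T⟩ h1
    simp only [mem_product, mem_powerset] at h1
    simp only
    unfold gt
    exact prod_union (disjoint_of_subset_left h1.1 disjoint_sdiff)
  have hsplit : ∀ T ∈ F, gt q T = gt q S * gt q (T \ S) := by
    intro T hT
    simp only [hF, mem_filter] at hT
    unfold gt
    rw [mul_comm, prod_sdiff hT.2]
  calc wt q S * ∑ T ∈ F, gt q T
      = (wt q S * gt q S) * ∑ T ∈ F, gt q (T \ S) := by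
        rw [sum_congr rfl hsplit, ← mul_sum]; ring
    _ = (∑ V ∈ S.powerset, gt q V) * ∑ T ∈ F, gt q (T \ S) := by
        rw [sum_gt_powerset hq hS]
    _ = ∑ x ∈ S.powerset ×ˢ F, gt q x.1 * gt q (x.2 \ S) := by
        rw [sum_mul_sum, sum_product]
    _ = ∑ x ∈ S.powerset ×ˢ F, gt q (x.1 ∪ (x.2 \ S)) :=
        sum_congr rfl fun x hx => (hval x hx).symm
    _ = ∑ U ∈ (S.powerset ×ˢ F).image (fun x => x.1 ∪ (x.2 \ S)), gt q U := by
        rw [sum_image hinj]
    _ ≤ ∑ U ∈ fam P q D, gt q U :=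
        sum_le_sum_of_subset_of_nonneg himg fun U hU _ => (gt_pos hq (mem_fam.1 hU).1).le

lemma abs_lam_le (hq : ∀ p ∈ P, 1 < q p) (hD : 1 ≤ D) {S : Finset ι} (hS : S ⊆ P) :
    |lam P q D S| ≤ 1 := by
  have h := LL_pos hq hD
  have h1 := wt_mul_sum_le (D := D) hq hS
  have h2 : 0 ≤ ∑ T ∈ (fam P q D).filter (S ⊆ ·), gt q T :=
    sum_nonneg fun T hT => (gt_pos hq (mem_fam.1 (mem_filter.1 hT).1).1).le
  have h3 := wt_pos hq hS
  unfold lam
  rw [abs_mul, abs_div, abs_mul, abs_pow, abs_neg, abs_one, one_pow, one_mul, abs_of_pos h3,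
    abs_of_pos h, abs_of_nonneg h2, div_mul_eq_mul_div, div_le_one h]
  exact h1

/-- `∑_{V ⊆ S ⊆ T} (-1)^{|S|} = (-1)^{|V|}` if `V = T` and `0` otherwise (`V ⊆ T`). -/
lemma sum_neg_one_Icc {V T : Finset ι} (h : V ⊆ T) :
    ∑ S ∈ T.powerset.filter (V ⊆ ·), (-1 : ℝ) ^ S.card = if V = T then (-1) ^ V.card else 0 := by
  have h1 : ∑ S ∈ T.powerset.filter (V ⊆ ·), (-1 : ℝ) ^ S.card =
      ∑ U ∈ (T \ V).powerset, (-1 : ℝ) ^ (V.card + U.card) := by
    symm
    refine sum_bij' (fun U _ => V ∪ U) (fun S _ => S \ V) ?_ ?_ ?_ ?_ ?_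
    · intro U hU
      rw [mem_powerset] at hU
      rw [mem_filter, mem_powerset]
      exact ⟨union_subset h (hU.trans sdiff_subset), subset_union_left⟩
    · intro S hS
      rw [mem_filter, mem_powerset] at hS
      rw [mem_powerset]
      exact sdiff_subset_sdiff hS.1 subset_rfl
    · intro U hU
      rw [mem_powerset] at hU
      have : Disjoint V U := disjoint_of_subset_right hU disjoint_sdiff
      simp only [union_sdiff_left]
      exact sdiff_eq_self_of_disjoint this.symm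
    · intro S hS
      rw [mem_filter, mem_powerset] at hS
      exact union_sdiff_of_subset hS.2
    · intro U hU
      rw [mem_powerset] at hU
      have : Disjoint V U := disjoint_of_subset_right hU disjoint_sdiff
      rw [card_union_of_disjoint this]
  rw [h1]
  simp_rw [pow_add]
  rw [← mul_sum]
  have h2 : ∑ U ∈ (T \ V).powerset, (-1 : ℝ) ^ U.card = if T \ V = ∅ then 1 else 0 := by
    have := sum_powerset_neg_one_pow_card (x := T \ V)
    have h3 : ((∑ m ∈ (T \ V).powerset, (-1 : ℤ) ^ m.card : ℤ) : ℝ) =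
        ((if T \ V = ∅ then 1 else 0 : ℤ) : ℝ) := by rw [this]
    push_cast at h3
    exact h3
  rw [h2]
  by_cases hVT : V = T
  · subst hVT; simp
  · have : T \ V ≠ ∅ := by
      intro h4
      rw [sdiff_eq_empty_iff_subset] at h4
      exact hVT (h.antisymm h4)
    simp [hVT, this]

/-- the inner sums that diagonalise the quadratic form -/
lemma sum_lam_div (hq : ∀ p ∈ P, 1 < q p) {V : Finset ι} (hV : V ⊆ P) :
    ∑ S ∈ P.powerset.filter (V ⊆ ·), lam P q D S / wt q S =
      if V ∈ fam P q D then (-1) ^ V.card * gt q V / LL P q D else 0 := by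
  have h1 : ∀ S ∈ P.powerset.filter (V ⊆ ·), lam P q D S / wt q S =
      ∑ T ∈ fam P q D, if S ⊆ T then (-1) ^ S.card * gt q T / LL P q D else 0 := by
    intro S hS
    rw [mem_filter, mem_powerset] at hS
    have h3 := (wt_pos hq hS.1).ne'
    unfold lam
    rw [← sum_filter]
    rw [mul_comm, mul_div_assoc, sum_mul]
    refine sum_congr rfl fun T _ => ?_
    field_simp
  rw [sum_congr rfl h1, sum_comm]
  have h2 : ∀ T ∈ fam P q D,
      ∑ S ∈ P.powerset.filter (V ⊆ ·), (if S ⊆ T then (-1 : ℝ) ^ S.card * gt q T / LL P q D else 0)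
      = if V = T then (-1) ^ V.card * gt q V / LL P q D else 0 := by
    intro T hT
    rw [mem_fam] at hT
    rw [← sum_filter]
    have h3 : (P.powerset.filter (V ⊆ ·)).filter (· ⊆ T) = T.powerset.filter (V ⊆ ·) := by
      ext S
      simp only [mem_filter, mem_powerset]
      constructor
      · rintro ⟨⟨_, h5⟩, h6⟩; exact ⟨h6, h5⟩
      · rintro ⟨h5, h6⟩; exact ⟨⟨h5.trans hT.1, h6⟩, h5⟩
    rw [h3]
    by_cases hVT : V ⊆ T
    · have h4 := sum_neg_one_Icc hVT
      have h5 : ∑ S ∈ T.powerset.filter (V ⊆ ·), (-1 : ℝ) ^ S.card * gt q T / LL P q D =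
          (∑ S ∈ T.powerset.filter (V ⊆ ·), (-1 : ℝ) ^ S.card) * (gt q T / LL P q D) := by
        rw [sum_mul]
        refine sum_congr rfl fun S _ => ?_
        ring
      rw [h5, h4]
      by_cases h6 : V = T
      · subst h6; simp; ring
      · simp [h6]
    · have h4 : T.powerset.filter (V ⊆ ·) = ∅ := by
        rw [filter_eq_empty_iff]
        intro S hS hVS
        rw [mem_powerset] at hS
        exact hVT (hVS.trans hS)
      have h5 : V ≠ T := fun h => hVT (h ▸ subset_rfl)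
      rw [h4]; simp [h5]
  rw [sum_congr rfl h2]
  rw [sum_ite_eq]

lemma wt_union_inv (hq : ∀ p ∈ P, 1 < q p) {S T : Finset ι} (hS : S ⊆ P) (hT : T ⊆ P) :
    (wt q (S ∪ T))⁻¹ = (∑ V ∈ (S ∩ T).powerset, (gt q V)⁻¹) / (wt q S * wt q T) := by
  rw [sum_gt_inv_powerset]
  have h1 := wt_pos hq hS
  have h2 := wt_pos hq hT
  have h3 : wt q (S ∪ T) * wt q (S ∩ T) = wt q S * wt q T := by
    unfold wt; exact prod_union_inter
  have h4 := wt_pos hq (union_subset hS hT)
  rw [eq_div_iff (mul_pos h1 h2).ne', ← h3, ← mul_assoc, inv_mul_cancel₀ h4.ne', one_mul]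

/-- **Selberg's diagonalisation**: the quadratic form at `λ` equals `1 / L`. -/
theorem sum_lam_lam (hq : ∀ p ∈ P, 1 < q p) (hD : 1 ≤ D) :
    ∑ S ∈ P.powerset, ∑ T ∈ P.powerset, lam P q D S * lam P q D T * (wt q (S ∪ T))⁻¹ =
      (LL P q D)⁻¹ := by
  have hL := LL_pos hq hD
  have h1 : ∀ S ∈ P.powerset, ∀ T ∈ P.powerset,
      lam P q D S * lam P q D T * (wt q (S ∪ T))⁻¹ =
      ∑ V ∈ P.powerset, (if V ⊆ S then lam P q D S / wt q S else 0) *
        (if V ⊆ T then lam P q D T / wt q T else 0) * (gt q V)⁻¹ := by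
    intro S hS T hT
    rw [mem_powerset] at hS hT
    rw [wt_union_inv hq hS hT]
    have h3 : (S ∩ T).powerset = P.powerset.filter (fun V => V ⊆ S ∧ V ⊆ T) := by
      ext V
      simp only [mem_powerset, mem_filter, subset_inter_iff]
      constructor
      · rintro ⟨h4, h5⟩; exact ⟨h4.trans hS, h4, h5⟩
      · rintro ⟨_, h4, h5⟩; exact ⟨h4, h5⟩
    rw [h3, sum_filter, ← mul_div_assoc, mul_sum, sum_div]
    refine sum_congr rfl fun V _ => ?_
    by_cases h4 : V ⊆ S
    · by_cases h5 : V ⊆ T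
      · simp only [h4, h5, and_self, if_true]
        have := (wt_pos hq hS).ne'
        have := (wt_pos hq hT).ne'
        field_simp
      · simp [h4, h5]
    · simp [h4]
  have h2 : ∑ S ∈ P.powerset, ∑ T ∈ P.powerset, lam P q D S * lam P q D T * (wt q (S ∪ T))⁻¹
      = ∑ V ∈ P.powerset, (∑ S ∈ P.powerset.filter (V ⊆ ·), lam P q D S / wt q S) ^ 2 *
        (gt q V)⁻¹ := by
    rw [sum_congr rfl fun S hS => sum_congr rfl fun T hT => h1 S hS T hT]
    rw [sum_congr rfl fun S _ => sum_comm, sum_comm]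
    refine sum_congr rfl fun V _ => ?_
    rw [sq, sum_filter, sum_mul_sum, sum_mul]
    refine sum_congr rfl fun S _ => ?_
    rw [sum_mul]
  rw [h2]
  have h3 : ∀ V ∈ P.powerset,
      (∑ S ∈ P.powerset.filter (V ⊆ ·), lam P q D S / wt q S) ^ 2 * (gt q V)⁻¹ =
      if V ∈ fam P q D then gt q V / (LL P q D) ^ 2 else 0 := by
    intro V hV
    rw [mem_powerset] at hV
    rw [sum_lam_div hq hV]
    have h4 := (gt_pos hq hV).ne'
    by_cases h5 : V ∈ fam P q D
    · simp only [h5, if_true]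
      rw [div_pow, mul_pow, ← pow_mul, mul_comm V.card 2, pow_mul, neg_one_sq, one_pow, one_mul]
      field_simp
    · simp [h5]
  rw [sum_congr rfl h3, ← sum_filter]
  have h6 : P.powerset.filter (· ∈ fam P q D) = fam P q D := by
    ext V
    simp only [mem_filter, mem_powerset, mem_fam]
    tauto
  rw [h6, ← sum_div]
  change LL P q D / _ = _
  field_simp

/-- **Selberg's upper bound sieve**. `A` is a finite set with weights `W ≥ 0`; `s a ⊆ P` is the set
of primes of `P` dividing `a`. If the mass of `{a : S ⊆ s a}` is `X / |S|` up to `R S`, then the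
sifted mass is at most `X / L + ∑∑ R (S ∪ T)`. -/
theorem upper_bound {α : Type*} (A : Finset α) (W : α → ℝ) (hW : ∀ a ∈ A, 0 ≤ W a)
    (s : α → Finset ι) (hs : ∀ a ∈ A, s a ⊆ P) (X : ℝ) (R : Finset ι → ℝ)
    (hq : ∀ p ∈ P, 1 < q p) (hD : 1 ≤ D)
    (hR : ∀ S ⊆ P, |∑ a ∈ A.filter (fun a => S ⊆ s a), W a - X / wt q S| ≤ R S) :
    ∑ a ∈ A.filter (fun a => s a = ∅), W a ≤
      X / LL P q D + ∑ S ∈ fam P q D, ∑ T ∈ fam P q D, R (S ∪ T) := by
  have h1 : ∀ a ∈ A, (if s a = ∅ then W a else 0) ≤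
      W a * (∑ S ∈ P.powerset, if S ⊆ s a then lam P q D S else 0) ^ 2 := by
    intro a ha
    by_cases h : s a = ∅
    · have h2 : (∑ S ∈ P.powerset, if S ⊆ s a then lam P q D S else 0) = 1 := by
        rw [h]
        have h3 : ∀ S ∈ P.powerset, (if S ⊆ (∅ : Finset ι) then lam P q D S else 0) =
            if S = ∅ then lam P q D ∅ else 0 := by
          intro S _
          by_cases h4 : S = ∅
          · subst h4; simp
          · have : ¬ S ⊆ ∅ := fun h5 => h4 (subset_empty.1 h5)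
            simp [h4, this]
        rw [sum_congr rfl h3, sum_ite_eq']
        simp [lam_empty hq hD]
      rw [h2, if_pos h]; simp
    · rw [if_neg h]
      exact mul_nonneg (hW a ha) (sq_nonneg _)
  have h2 : ∑ a ∈ A, W a * (∑ S ∈ P.powerset, if S ⊆ s a then lam P q D S else 0) ^ 2 =
      ∑ S ∈ P.powerset, ∑ T ∈ P.powerset, lam P q D S * lam P q D T *
        ∑ a ∈ A.filter (fun a => S ∪ T ⊆ s a), W a := by
    have h3 : ∀ a ∈ A, W a * (∑ S ∈ P.powerset, if S ⊆ s a then lam P q D S else 0) ^ 2 =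
        ∑ S ∈ P.powerset, ∑ T ∈ P.powerset,
          if S ∪ T ⊆ s a then lam P q D S * lam P q D T * W a else 0 := by
      intro a _
      rw [sq, sum_mul_sum, mul_sum]
      refine sum_congr rfl fun S _ => ?_
      rw [mul_sum]
      refine sum_congr rfl fun T _ => ?_
      by_cases h4 : S ⊆ s a
      · by_cases h5 : T ⊆ s a
        · simp only [h4, h5, if_true, union_subset h4 h5]; ring
        · have : ¬ (S ∪ T ⊆ s a) := fun h => h5 (subset_union_right.trans h)
          simp [h5, this]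
      · have : ¬ (S ∪ T ⊆ s a) := fun h => h4 (subset_union_left.trans h)
        simp [h4, this]
    rw [sum_congr rfl h3, sum_comm]
    refine sum_congr rfl fun S _ => ?_
    rw [sum_comm]
    refine sum_congr rfl fun T _ => ?_
    rw [← sum_filter, mul_sum]
  have h3 : ∑ S ∈ P.powerset, ∑ T ∈ P.powerset, lam P q D S * lam P q D T *
        ∑ a ∈ A.filter (fun a => S ∪ T ⊆ s a), W a =
      X / LL P q D + ∑ S ∈ P.powerset, ∑ T ∈ P.powerset, lam P q D S * lam P q D T *
        (∑ a ∈ A.filter (fun a => S ∪ T ⊆ s a), W a - X / wt q (S ∪ T)) := by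
    have h4 := sum_lam_lam (P := P) (q := q) hq hD
    rw [div_eq_mul_inv, ← h4, mul_sum, ← sum_add_distrib]
    refine sum_congr rfl fun S _ => ?_
    rw [mul_sum, ← sum_add_distrib]
    refine sum_congr rfl fun T _ => ?_
    ring
  have h5 : ∑ S ∈ P.powerset, ∑ T ∈ P.powerset, lam P q D S * lam P q D T *
        (∑ a ∈ A.filter (fun a => S ∪ T ⊆ s a), W a - X / wt q (S ∪ T)) ≤
      ∑ S ∈ P.powerset, ∑ T ∈ P.powerset,
        if S ∈ fam P q D ∧ T ∈ fam P q D then R (S ∪ T) else 0 := by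
    refine sum_le_sum fun S hS => sum_le_sum fun T hT => ?_
    rw [mem_powerset] at hS hT
    by_cases h6 : S ∈ fam P q D ∧ T ∈ fam P q D
    · rw [if_pos h6]
      refine (le_abs_self _).trans ?_
      rw [abs_mul, abs_mul]
      have h7 := hR (S ∪ T) (union_subset hS hT)
      have h8 := abs_lam_le (D := D) hq hD hS
      have h9 := abs_lam_le (D := D) hq hD hT
      have h10 : |lam P q D S| * |lam P q D T| ≤ 1 := mul_le_one₀ h8 (abs_nonneg _) h9
      calc _ ≤ 1 * R (S ∪ T) := by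
            refine mul_le_mul h10 h7 (abs_nonneg _) zero_le_one
        _ = _ := one_mul _
    · rw [if_neg h6]
      rw [not_and_or] at h6
      rcases h6 with h6 | h6
      · rw [lam_eq_zero hq h6]; simp
      · rw [lam_eq_zero hq h6]; simp
  have h6 : ∑ S ∈ P.powerset, ∑ T ∈ P.powerset,
        (if S ∈ fam P q D ∧ T ∈ fam P q D then R (S ∪ T) else 0) =
      ∑ S ∈ fam P q D, ∑ T ∈ fam P q D, R (S ∪ T) := by
    have h7 : fam P q D = P.powerset.filter (· ∈ fam P q D) := by
      ext V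
      simp only [mem_filter, mem_powerset, mem_fam]
      tauto
    conv_rhs => rw [h7]
    rw [sum_filter]
    refine sum_congr rfl fun S _ => ?_
    by_cases h8 : S ∈ fam P q D
    · simp only [h8, true_and, if_true]
      rw [sum_filter]
    · simp [h8]
  rw [sum_filter]
  calc _ ≤ ∑ a ∈ A, W a * (∑ S ∈ P.powerset, if S ⊆ s a then lam P q D S else 0) ^ 2 :=
        sum_le_sum h1
    _ ≤ _ := by
        rw [h2, h3, ← h6]
        linarith

end Vale.Agent.P006.Selberg
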