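import Vale.Agent.P006.H845.Sqf
import Vale.Agent.P006.H845.Selberg
import Vale.Agent.P006.H570.Per

/-!
P006, block ROUGH (helper845): Selberg's sieve on `O`: upper bounds for rough elements and primes,
Mertens type product bound, smooth elements.
-/

namespace Vale.Agent.P006

open Finset

/-! ### The number of primary elements -/

/-- density of the primary elements: `2π / (9 √3)` -/
noncomputable def kap : ℝ := 2 * Real.pi / (9 * Real.sqrt 3)

theorem kap_pos : 0 < kap := by unfold kap; positivity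

theorem kap_le : kap ≤ 1 / 2 := by
  unfold kap
  have h1 : Real.pi ≤ 3.15 := by linarith [Real.pi_lt_d2]
  have h2 : (1.7 : ℝ) ≤ Real.sqrt 3 := Real.le_sqrt_of_sq_le (by norm_num)
  rw [div_le_iff₀ (by positivity)]
  nlinarith

theorem card_PB_sub_le {X : ℝ} (hX : 0 ≤ X) :
    |((PB X).card : ℝ) - kap * X| ≤ 8 * (Real.sqrt X + 1) := by
  classical
  have h1 := H570.card_class_sub_le 1 3 (by decide) hX
  have h2 : (PB X).card = ((H570.nb X).filter (fun b => (3 : O) ∣ b - 1)).card := by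
    congr 1
    ext c
    rw [mem_PB, mem_filter, H570.mem_nb hX]
    exact and_comm
  have h3 : N (3 : O) = 9 := by decide
  rw [h2]
  have h4 : kap * X = 2 * Real.pi * (X / N (3 : O)) / Real.sqrt 3 := by
    rw [h3, kap]; push_cast; field_simp
  rw [h4]
  refine le_trans (le_of_eq ?_) (h1.trans ?_)
  · congr!
  rw [h3]
  have h5 : Real.sqrt (X / (9 : ℕ)) ≤ Real.sqrt X := by
    apply Real.sqrt_le_sqrt
    push_cast
    linarith
  linarith

/-! ### The sum `L` -/

theorem sum_Icc_pow_inv_le {q : ℝ} (hq : 1 < q) (K : ℕ) :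
    ∑ k ∈ Finset.Icc 1 K, (q ^ k)⁻¹ ≤ (q - 1)⁻¹ := by
  have h : ∀ K : ℕ, ∑ k ∈ Finset.Icc 1 K, (q ^ k)⁻¹ = (1 - (q ^ K)⁻¹) / (q - 1) := by
    intro K
    have hq1 : q - 1 ≠ 0 := by linarith
    have hq0 : q ≠ 0 := by linarith
    induction K with
    | zero => simp
    | succ K ih =>
      rw [sum_Icc_succ_top (by omega), ih]
      field_simp
      ring
  rw [h, div_eq_mul_inv]
  have h1 : 0 < (q - 1)⁻¹ := inv_pos.2 (by linarith)
  have h2 : 0 ≤ (q ^ K)⁻¹ := by positivity
  nlinarith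

/-- the elements with a given set of prime divisors have reciprocal norm sum at most
`∏ 1/(N p - 1)` -/
theorem sum_inv_le_of_pdv (S : Finset O) (hS : IsPSet S) :
    ∀ T : Finset O, (∀ c ∈ T, Primary c ∧ pdv c = S) →
      ∑ c ∈ T, (N c : ℝ)⁻¹ ≤ ∏ p ∈ S, ((N p : ℝ) - 1)⁻¹ := by
  classical
  induction S using Finset.induction_on with
  | empty =>
    intro T hT
    have h1 : T ⊆ {1} := by
      intro c hc
      rw [mem_singleton]
      by_contra h
      exact (pdv_nonempty (hT c hc).1 h).ne_empty (hT c hc).2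
    calc ∑ c ∈ T, (N c : ℝ)⁻¹ ≤ ∑ c ∈ {1}, (N c : ℝ)⁻¹ :=
          sum_le_sum_of_subset_of_nonneg h1 fun c _ _ => by positivity
      _ = _ := by simp
  | insert p S hp ih =>
    intro T hT
    obtain ⟨hpr, hpp⟩ := hS p (mem_insert_self _ _)
    have hS' := hS.mono (subset_insert p S)
    -- decomposition `c = p^k c'`
    have hdec : ∀ c ∈ T, ∃ k : ℕ, ∃ c' : O, 1 ≤ k ∧ c = p ^ k * c' ∧ Primary c' ∧ pdv c' = S ∧
        k ≤ N c := by
      intro c hc
      obtain ⟨h1, h2⟩ := hT c hc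
      obtain ⟨k, c', h3, h4⟩ := WfDvdMonoid.max_power_factor h1.ne_zero hpr.irreducible
      have h5 : Primary c' := (hpp.pow k).of_mul (h4 ▸ h1)
      have h6 : p ∈ pdv c := by rw [h2]; exact mem_insert_self _ _
      have h7 : p ∣ c := ((mem_pdv h1.ne_zero).1 h6).2.2
      have h8 : 1 ≤ k := by
        by_contra h
        have : k = 0 := by omega
        subst this
        rw [pow_zero, one_mul] at h4
        exact h3 (h4 ▸ h7)
      refine ⟨k, c', h8, h4, h5, ?_, ?_⟩
      · have h9 : pdv c = insert p (pdv c') := by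
          rw [h4, pdv_mul (hpp.pow k) h5]
          have h10 : pdv (p ^ k) = {p} := by
            ext q
            rw [mem_singleton, mem_pdv (hpp.pow k).ne_zero]
            constructor
            · rintro ⟨h11, h12, h13⟩
              exact h11.eq_of_associated hpp (h12.associated_of_dvd hpr (h12.dvd_of_dvd_pow h13))
            · rintro rfl
              exact ⟨hpp, hpr, dvd_pow_self _ (by omega)⟩
          rw [h10]; rfl
        rw [h2] at h9
        have h11 : p ∉ pdv c' := fun h => h3 ((mem_pdv h5.ne_zero).1 h).2.2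
        have h12 := congrArg (fun s => s.erase p) h9
        simp only [erase_insert hp, erase_insert h11] at h12
        exact h12.symm
      · have h9 : 2 ^ k ≤ N c := by
          rw [h4, N_mul, N_pow]
          calc 2 ^ k ≤ N p ^ k := Nat.pow_le_pow_left (Prime.two_le_N hpr) k
            _ ≤ N p ^ k * N c' := Nat.le_mul_of_pos_right _ (N_pos h5.ne_zero)
        exact (Nat.lt_two_pow_self).le.trans h9
    choose! kk cc h1 h2 h3 h4 h5 using hdec
    set K := ∑ c ∈ T, N c with hK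
    set T' := T.image cc with hT'
    have hinj : ∀ c ∈ T, ∀ d ∈ T, (kk c, cc c) = (kk d, cc d) → c = d := by
      intro c hc d hd h
      simp only [Prod.mk.injEq] at h
      rw [h2 c hc, h2 d hd, h.1, h.2]
    have himg : T.image (fun c => (kk c, cc c)) ⊆ Finset.Icc 1 K ×ˢ T' := by
      intro x hx
      rw [mem_image] at hx
      obtain ⟨c, hc, rfl⟩ := hx
      rw [mem_product, Finset.mem_Icc]
      refine ⟨⟨h1 c hc, (h5 c hc).trans ?_⟩, mem_image_of_mem _ hc⟩
      exact single_le_sum (f := fun c => N c) (fun _ _ => Nat.zero_le _) hc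
    have hq : (1 : ℝ) < N p := by
      have : (2 : ℝ) ≤ N p := by exact_mod_cast Prime.two_le_N hpr
      linarith
    calc ∑ c ∈ T, (N c : ℝ)⁻¹
        = ∑ c ∈ T, ((N p : ℝ) ^ (kk c))⁻¹ * (N (cc c) : ℝ)⁻¹ := by
          refine sum_congr rfl fun c hc => ?_
          conv_lhs => rw [h2 c hc]
          rw [N_mul, N_pow]; push_cast
          rw [mul_inv]
      _ = ∑ x ∈ T.image (fun c => (kk c, cc c)), ((N p : ℝ) ^ x.1)⁻¹ * (N x.2 : ℝ)⁻¹ := by
          rw [sum_image hinj]
      _ ≤ ∑ x ∈ Finset.Icc 1 K ×ˢ T', ((N p : ℝ) ^ x.1)⁻¹ * (N x.2 : ℝ)⁻¹ :=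
          sum_le_sum_of_subset_of_nonneg himg fun _ _ _ => by positivity
      _ = (∑ k ∈ Finset.Icc 1 K, ((N p : ℝ) ^ k)⁻¹) * ∑ c ∈ T', (N c : ℝ)⁻¹ := by
          rw [sum_mul_sum, sum_product]
      _ ≤ ((N p : ℝ) - 1)⁻¹ * ∏ p ∈ S, ((N p : ℝ) - 1)⁻¹ := by
          refine mul_le_mul (sum_Icc_pow_inv_le hq K) (ih hS' T' ?_) (by positivity)
            (inv_nonneg.2 (by linarith))
          intro c hc
          rw [hT', mem_image] at hc
          obtain ⟨d, hd, rfl⟩ := hc
          exact ⟨h3 d hd, h4 d hd⟩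
      _ = _ := by rw [prod_insert hp]

open Classical in
/-- the primary primes of norm `< z` -/
noncomputable def PL (z : ℝ) : Finset O := (PB z).filter (fun p => Prime p ∧ (N p : ℝ) < z)

theorem mem_PL {z : ℝ} {p : O} : p ∈ PL z ↔ Primary p ∧ Prime p ∧ (N p : ℝ) < z := by
  classical
  rw [PL, mem_filter, mem_PB]
  constructor
  · rintro ⟨⟨h1, _⟩, h3, h4⟩; exact ⟨h1, h3, h4⟩
  · rintro ⟨h1, h2, h3⟩; exact ⟨⟨h1, h3.le⟩, h2, h3⟩

theorem isPSet_PL (z : ℝ) : IsPSet (PL z) := fun p hp => by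
  rw [mem_PL] at hp; exact ⟨hp.2.1, hp.1⟩

theorem one_lt_N_PL {z : ℝ} : ∀ p ∈ PL z, (1 : ℝ) < (N p : ℝ) := by
  intro p hp
  rw [mem_PL] at hp
  have : (2 : ℝ) ≤ N p := by exact_mod_cast Prime.two_le_N hp.2.1
  linarith

theorem wt_eq_N_pr (S : Finset O) : Selberg.wt (fun p => (N p : ℝ)) S = N (pr S) := by
  rw [Selberg.wt, N_pr]; push_cast; rfl

/-- `L ≥ ∑_{N c ≤ D} 1 / N c` if `D < z` -/
theorem sum_inv_le_LL {z D : ℝ} (hD : D < z) :
    ∑ c ∈ PB D, (N c : ℝ)⁻¹ ≤ Selberg.LL (PL z) (fun p => (N p : ℝ)) D := by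
  classical
  have hmaps : ∀ c ∈ PB D, pdv c ∈ Selberg.fam (PL z) (fun p => (N p : ℝ)) D := by
    intro c hc
    rw [mem_PB] at hc
    rw [Selberg.mem_fam, wt_eq_N_pr]
    have h1 : pr (pdv c) ∣ c := (pr_dvd_iff (isPSet_pdv hc.1.ne_zero) hc.1.ne_zero).2 subset_rfl
    have h2 : (N (pr (pdv c)) : ℝ) ≤ N c := by
      exact_mod_cast Nat.le_of_dvd (N_pos hc.1.ne_zero) (N_dvd_N h1)
    refine ⟨?_, h2.trans hc.2⟩
    intro p hp
    rw [mem_pdv hc.1.ne_zero] at hp
    rw [mem_PL]
    refine ⟨hp.1, hp.2.1, ?_⟩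
    have h3 : (N p : ℝ) ≤ N c := by
      exact_mod_cast Nat.le_of_dvd (N_pos hc.1.ne_zero) (N_dvd_N hp.2.2)
    linarith [hc.2]
  rw [← sum_fiberwise_of_maps_to hmaps, Selberg.LL]
  refine sum_le_sum fun S hS => ?_
  rw [Selberg.mem_fam] at hS
  rw [Selberg.gt]
  apply sum_inv_le_of_pdv S ((isPSet_PL z).mono hS.1)
  intro c hc
  rw [mem_filter, mem_PB] at hc
  exact ⟨hc.1.1, hc.2⟩

theorem log_le_LL {z : ℝ} (hz : 2 ≤ z) :
    Real.log z / 200 ≤ Selberg.LL (PL z) (fun p => (N p : ℝ)) (z / 2) := by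
  have h1 : 1 ≤ z / 2 := by linarith
  have h2 := sum_inv_le_LL (show z / 2 < z by linarith)
  have h3 := le_sum_inv_PB h1
  by_cases h4 : z < 4
  · have h5 : (1 : ℝ) ≤ ∑ c ∈ PB (z / 2), (N c : ℝ)⁻¹ := by
      have := single_le_sum (f := fun c : O => (N c : ℝ)⁻¹) (s := PB (z / 2))
        (fun _ _ => by positivity) (one_mem_PB h1)
      simpa using this
    have h6 : Real.log z ≤ z - 1 := Real.log_le_sub_one_of_pos (by linarith)
    linarith
  · push Not at h4
    have h5 : Real.log z ≤ 2 * Real.log (z / 2) := by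
      rw [← Real.log_rpow (by linarith)]
      apply Real.log_le_log (by linarith)
      norm_num
      nlinarith
    linarith

theorem card_fam_le {z D : ℝ} (hD : 0 ≤ D) :
    ((Selberg.fam (PL z) (fun p => (N p : ℝ)) D).card : ℝ) ≤ 4 * D := by
  classical
  refine le_trans ?_ (card_PB_le hD)
  have : (Selberg.fam (PL z) (fun p => (N p : ℝ)) D).card ≤ (PB D).card := by
    apply card_le_card_of_injOn pr
    · intro S hS
      rw [mem_coe, Selberg.mem_fam, wt_eq_N_pr] at hS
      rw [mem_coe, mem_PB]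
      exact ⟨primary_pr ((isPSet_PL z).mono hS.1), hS.2⟩
    · intro S hS T hT h
      rw [mem_coe, Selberg.mem_fam] at hS hT
      have h1 := pdv_pr ((isPSet_PL z).mono hS.1)
      have h2 := pdv_pr ((isPSet_PL z).mono hT.1)
      rw [← h1, ← h2, h]
  exact_mod_cast this

/-! ### Rough elements -/

theorem card_block_multiples {x y : ℝ} (hx : 0 ≤ x) (hy : 0 ≤ y) {d : O} (hd : Primary d) :
    |((((PB (x + y)).filter (fun a => x < N a)).filter (d ∣ ·)).card : ℝ) - kap * y / N d| ≤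
      16 * (Real.sqrt (x + y) + 1) := by
  have hN : (1 : ℝ) ≤ N d := hd.one_le_N'
  have h1 : (((PB (x + y)).filter (fun a => x < N a)).filter (d ∣ ·)).card + (PB (x / N d)).card
      = (PB ((x + y) / N d)).card := by
    rw [← card_multiples_PB x hd, ← card_multiples_PB (x + y) hd, ← card_union_of_disjoint]
    · congr 1
      ext c
      simp only [mem_union, mem_filter, mem_PB]
      constructor
      · rintro (⟨⟨⟨h1, h2⟩, _⟩, h3⟩ | ⟨⟨h1, h2⟩, h3⟩)
        · exact ⟨⟨h1, h2⟩, h3⟩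
        · exact ⟨⟨h1, by linarith⟩, h3⟩
      · rintro ⟨⟨h1, h2⟩, h3⟩
        by_cases h4 : (N c : ℝ) ≤ x
        · exact Or.inr ⟨⟨h1, h4⟩, h3⟩
        · exact Or.inl ⟨⟨⟨h1, h2⟩, not_le.1 h4⟩, h3⟩
    · rw [Finset.disjoint_left]
      intro c hc hc2
      simp only [mem_filter, mem_PB] at hc hc2
      linarith [hc.1.2, hc2.1.2]
  have h2 : ((((PB (x + y)).filter (fun a => x < N a)).filter (d ∣ ·)).card : ℝ) =
      ((PB ((x + y) / N d)).card : ℝ) - ((PB (x / N d)).card : ℝ) := by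
    rw [← h1]; push_cast; ring
  have h3 := card_PB_sub_le (X := (x + y) / N d) (by positivity)
  have h4 := card_PB_sub_le (X := x / N d) (by positivity)
  have h5 : Real.sqrt ((x + y) / N d) ≤ Real.sqrt (x + y) :=
    Real.sqrt_le_sqrt (div_le_self (by positivity) hN)
  have h6 : Real.sqrt (x / N d) ≤ Real.sqrt (x + y) :=
    Real.sqrt_le_sqrt ((div_le_self (by positivity) hN).trans (by linarith))
  rw [h2]
  have h7 : kap * y / N d = kap * ((x + y) / N d) - kap * (x / N d) := by ring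
  rw [h7]
  rw [abs_le] at h3 h4 ⊢
  constructor <;> linarith [h3.1, h3.2, h4.1, h4.2]

open Classical in
/-- **Upper bound for rough elements in short blocks.** -/
theorem card_rough_block_le {x y z : ℝ} (hx : 0 ≤ x) (hy : 0 ≤ y) (hz : 2 ≤ z) :
    (((PB (x + y)).filter (fun a => x < N a ∧ Rough z a)).card : ℝ) ≤
      100 * y / Real.log z + 64 * z ^ 2 * (Real.sqrt (x + y) + 1) := by
  set A := (PB (x + y)).filter (fun a => x < N a) with hA
  have hD : 1 ≤ z / 2 := by linarith
  have h1 := Selberg.upper_bound (P := PL z) (q := fun p => (N p : ℝ)) (D := z / 2) A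
    (fun _ => 1) (fun _ _ => zero_le_one) (fun a => (PL z).filter (· ∣ a))
    (fun a _ => filter_subset _ _) (kap * y) (fun _ => 16 * (Real.sqrt (x + y) + 1))
    one_lt_N_PL hD ?_
  · simp only [sum_const, nsmul_eq_mul, mul_one] at h1
    have h2 : (PB (x + y)).filter (fun a => x < N a ∧ Rough z a) ⊆
        A.filter (fun a => (PL z).filter (· ∣ a) = ∅) := by
      intro a ha
      rw [mem_filter, mem_PB] at ha
      rw [mem_filter, hA, mem_filter, mem_PB]
      refine ⟨⟨ha.1, ha.2.1⟩, ?_⟩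
      rw [filter_eq_empty_iff]
      intro p hp hpa
      rw [mem_PL] at hp
      exact absurd (ha.2.2 p hp.2.1 hpa) (not_le.2 hp.2.2)
    have h3 : (((PB (x + y)).filter (fun a => x < N a ∧ Rough z a)).card : ℝ) ≤
        ((A.filter (fun a => (PL z).filter (· ∣ a) = ∅)).card : ℝ) := by
      exact_mod_cast card_le_card h2
    refine h3.trans (h1.trans ?_)
    have h4 := log_le_LL hz
    have hlog : 0 < Real.log z := Real.log_pos (by linarith)
    have h5 : kap * y / Selberg.LL (PL z) (fun p => (N p : ℝ)) (z / 2) ≤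
        100 * y / Real.log z := by
      rw [div_le_div_iff₀ (by linarith) hlog]
      have h6 : kap * y * Real.log z ≤ 1 / 2 * y * Real.log z := by
        gcongr
        exact kap_le
      nlinarith
    have h7 := card_fam_le (z := z) (D := z / 2) (by linarith)
    have h8 : (0 : ℝ) ≤ ((Selberg.fam (PL z) (fun p => (N p : ℝ)) (z / 2)).card : ℝ) := by
      positivity
    have h9 : ((Selberg.fam (PL z) (fun p => (N p : ℝ)) (z / 2)).card : ℝ) *
        (((Selberg.fam (PL z) (fun p => (N p : ℝ)) (z / 2)).card : ℝ) *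
          (16 * (Real.sqrt (x + y) + 1))) ≤ 64 * z ^ 2 * (Real.sqrt (x + y) + 1) := by
      have h10 : ((Selberg.fam (PL z) (fun p => (N p : ℝ)) (z / 2)).card : ℝ) *
          ((Selberg.fam (PL z) (fun p => (N p : ℝ)) (z / 2)).card : ℝ) ≤
          (4 * (z / 2)) * (4 * (z / 2)) := mul_le_mul h7 h7 h8 (by linarith)
      have h11 : 0 ≤ 16 * (Real.sqrt (x + y) + 1) := by positivity
      nlinarith
    linarith
  · intro S hS
    have hSP := (isPSet_PL z).mono hS
    have h2 : A.filter (fun a => S ⊆ (PL z).filter (· ∣ a)) = A.filter (pr S ∣ ·) := by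
      apply filter_congr
      intro a ha
      rw [hA, mem_filter, mem_PB] at ha
      rw [pr_dvd_iff hSP ha.1.1.ne_zero]
      constructor
      · intro h p hp
        have h3 := h hp
        rw [mem_filter] at h3
        exact (mem_pdv ha.1.1.ne_zero).2 ⟨(hSP p hp).2, (hSP p hp).1, h3.2⟩
      · intro h p hp
        rw [mem_filter]
        exact ⟨hS hp, ((mem_pdv ha.1.1.ne_zero).1 (h hp)).2.2⟩
    simp only [sum_const, nsmul_eq_mul, mul_one]
    rw [h2, wt_eq_N_pr]
    exact card_block_multiples hx hy (primary_pr hSP)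

/-- `log x ≤ 8 x^{1/8}`-type bounds in the form used below -/
theorem rpow_mul_log_le {x : ℝ} (hx : 1 ≤ x) {a b : ℝ} (hab : a < b) :
    x ^ a * Real.log x ≤ x ^ b / (b - a) := by
  have h1 : 0 < b - a := by linarith
  have h2 := Real.log_le_rpow_div (show (0 : ℝ) ≤ x by linarith) h1
  have h3 : 0 < x ^ a := Real.rpow_pos_of_pos (by linarith) a
  calc x ^ a * Real.log x ≤ x ^ a * (x ^ (b - a) / (b - a)) := by gcongr
    _ = x ^ b / (b - a) := by
        rw [mul_div_assoc', ← Real.rpow_add (by linarith)]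
        congr 2; ring

open Classical in
/-- **Rough elements**: `#{a primary, N a ≤ x, z-rough} ≤ C x / log z + 1`, uniformly. -/
theorem card_rough_le : ∃ C : ℝ, 1 ≤ C ∧ ∀ x z : ℝ, 1 ≤ x → 2 ≤ z →
    (((PB x).filter (Rough z)).card : ℝ) ≤ C * x / Real.log z + 1 := by
  refine ⟨100000, by norm_num, ?_⟩
  intro x z hx hz
  have hlz : 0 < Real.log z := Real.log_pos (by linarith)
  by_cases h1 : x < z
  · have h2 : (PB x).filter (Rough z) ⊆ {1} := by
      intro a ha
      rw [mem_filter, mem_PB] at ha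
      rw [mem_singleton]
      by_contra h
      obtain ⟨p, hp⟩ := pdv_nonempty ha.1.1 h
      rw [mem_pdv ha.1.1.ne_zero] at hp
      have h3 := ha.2 p hp.2.1 hp.2.2
      have h4 : (N p : ℝ) ≤ N a := by
        exact_mod_cast Nat.le_of_dvd (N_pos ha.1.1.ne_zero) (N_dvd_N hp.2.2)
      linarith [ha.1.2]
    have h3 : (((PB x).filter (Rough z)).card : ℝ) ≤ 1 := by
      have := card_le_card h2
      rw [card_singleton] at this
      exact_mod_cast this
    have h4 : 0 ≤ 100000 * x / Real.log z := by positivity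
    linarith
  push Not at h1
  have hlx : Real.log z ≤ Real.log x := Real.log_le_log (by linarith) h1
  have hlx0 : 0 < Real.log x := by linarith
  -- small `x` trivial
  by_cases hx8 : x < 2 ^ (8 : ℕ)
  · have h2 : (((PB x).filter (Rough z)).card : ℝ) ≤ 4 * x :=
      le_trans (by exact_mod_cast card_le_card (filter_subset _ _)) (card_PB_le (by linarith))
    have h3 : Real.log z ≤ 6 := by
      refine hlx.trans ?_
      have h5 : Real.log x ≤ Real.log (2 ^ (8 : ℕ)) := Real.log_le_log (by linarith) hx8.le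
      rw [Real.log_pow] at h5
      have := Real.log_two_lt_d9
      push_cast at h5
      linarith
    have h4 : 4 * x ≤ 100000 * x / Real.log z := by
      rw [le_div_iff₀ hlz]
      nlinarith
    linarith
  push Not at hx8
  -- sieve with `w = min z x^{1/8}`
  set w : ℝ := min z (x ^ (1 / 8 : ℝ)) with hw
  have hx18 : (2 : ℝ) ≤ x ^ (1 / 8 : ℝ) := by
    calc (2 : ℝ) = ((2 : ℝ) ^ (8 : ℕ)) ^ (1 / 8 : ℝ) := by
          rw [← Real.rpow_natCast, ← Real.rpow_mul (by norm_num)]; norm_num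
      _ ≤ _ := Real.rpow_le_rpow (by norm_num) hx8 (by norm_num)
  have hw2 : 2 ≤ w := le_min hz hx18
  have hwz : w ≤ z := min_le_left _ _
  have hwx : w ≤ x ^ (1 / 8 : ℝ) := min_le_right _ _
  have h2 := card_rough_block_le (x := 0) (y := x) (z := w) le_rfl (by linarith) hw2
  have h3 : (((PB x).filter (Rough z)).card : ℝ) ≤
      (((PB (0 + x)).filter (fun a => (0 : ℝ) < N a ∧ Rough w a)).card : ℝ) := by
    have : (PB x).filter (Rough z) ⊆ (PB (0 + x)).filter (fun a => (0 : ℝ) < N a ∧ Rough w a) := by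
      intro a ha
      rw [mem_filter, mem_PB] at ha
      rw [mem_filter, mem_PB, zero_add]
      exact ⟨ha.1, by linarith [ha.1.1.one_le_N'], ha.2.mono hwz⟩
    exact_mod_cast card_le_card this
  refine h3.trans (h2.trans ?_)
  rw [zero_add]
  have hlw : Real.log z / 8 ≤ Real.log w := by
    rw [hw]
    rcases le_total z (x ^ (1 / 8 : ℝ)) with h | h
    · rw [min_eq_left h]; linarith
    · rw [min_eq_right h, Real.log_rpow (by linarith)]; linarith
  have hlw0 : 0 < Real.log w := by linarith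
  have h4 : 100 * x / Real.log w ≤ 800 * x / Real.log z := by
    rw [div_le_div_iff₀ hlw0 hlz]
    nlinarith
  have hs1 : 1 ≤ Real.sqrt x := by
    rw [show (1 : ℝ) = Real.sqrt 1 by simp]; exact Real.sqrt_le_sqrt hx
  have h5 : 64 * w ^ 2 * (Real.sqrt x + 1) ≤ 128 * x ^ (3 / 4 : ℝ) := by
    have h6 : w ^ 2 ≤ x ^ (1 / 4 : ℝ) := by
      calc w ^ 2 ≤ (x ^ (1 / 8 : ℝ)) ^ 2 := pow_le_pow_left₀ (by linarith) hwx 2
        _ = x ^ (1 / 4 : ℝ) := by
            rw [← Real.rpow_natCast, ← Real.rpow_mul (by linarith)]; norm_num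
    have h7 : Real.sqrt x + 1 ≤ 2 * x ^ (1 / 2 : ℝ) := by
      rw [← Real.sqrt_eq_rpow]; linarith
    calc 64 * w ^ 2 * (Real.sqrt x + 1) ≤ 64 * x ^ (1 / 4 : ℝ) * (2 * x ^ (1 / 2 : ℝ)) := by
          gcongr
      _ = 128 * (x ^ (1 / 4 : ℝ) * x ^ (1 / 2 : ℝ)) := by ring
      _ = 128 * x ^ (3 / 4 : ℝ) := by
          rw [← Real.rpow_add (by linarith)]; norm_num
  have h6 : x ^ (3 / 4 : ℝ) ≤ 4 * x / Real.log z := by
    rw [le_div_iff₀ hlz]
    have h7 := rpow_mul_log_le hx (show (3 / 4 : ℝ) < 1 by norm_num)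
    rw [Real.rpow_one] at h7
    have h8 : 0 ≤ x ^ (3 / 4 : ℝ) := by positivity
    calc x ^ (3 / 4 : ℝ) * Real.log z ≤ x ^ (3 / 4 : ℝ) * Real.log x := by gcongr
      _ ≤ x / (1 - 3 / 4) := h7
      _ = 4 * x := by ring
  have h7 : 800 * x / Real.log z + 128 * (4 * x / Real.log z) ≤ 100000 * x / Real.log z := by
    have : 0 ≤ x / Real.log z := by positivity
    have e1 : 800 * x / Real.log z = 800 * (x / Real.log z) := by ring
    have e2 : 4 * x / Real.log z = 4 * (x / Real.log z) := by ring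
    have e3 : 100000 * x / Real.log z = 100000 * (x / Real.log z) := by ring
    rw [e1, e2, e3]
    linarith
  linarith

/-- **Chebyshev**: `#{p primary prime, N p ≤ x} ≤ C x / log x`. -/
theorem card_PP_le : ∃ C : ℝ, 1 ≤ C ∧ ∀ x : ℝ, 2 ≤ x →
    ((PP x).card : ℝ) ≤ C * x / Real.log x := by
  classical
  obtain ⟨C, hC, h⟩ := card_rough_le
  refine ⟨2 * C + 20, by linarith, ?_⟩
  intro x hx
  have hlx : 0 < Real.log x := Real.log_pos (by linarith)
  by_cases hx4 : x < 4
  · have h1 : ((PP x).card : ℝ) ≤ 4 * x :=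
      le_trans (by exact_mod_cast card_le_card (filter_subset _ _)) (card_PB_le (by linarith))
    refine h1.trans ?_
    rw [le_div_iff₀ hlx]
    have h2 : Real.log x ≤ x - 1 := Real.log_le_sub_one_of_pos (by linarith)
    nlinarith
  push Not at hx4
  have hs2 : 2 ≤ Real.sqrt x := Real.le_sqrt_of_sq_le (by norm_num; exact hx4)
  have hsx : Real.sqrt x * Real.sqrt x = x := Real.mul_self_sqrt (by linarith)
  have h1 := h x (Real.sqrt x) (by linarith) hs2
  have h2 : (PP x) ⊆ (PB (Real.sqrt x)) ∪ (PB x).filter (Rough (Real.sqrt x)) := by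
    intro p hp
    rw [mem_PP] at hp
    rw [mem_union, mem_PB, mem_filter, mem_PB]
    by_cases h3 : (N p : ℝ) ≤ Real.sqrt x
    · exact Or.inl ⟨hp.1.1, h3⟩
    · exact Or.inr ⟨hp.1, rough_prime hp.2 (not_le.1 h3).le⟩
  have h3 : ((PP x).card : ℝ) ≤ ((PB (Real.sqrt x)).card : ℝ) +
      (((PB x).filter (Rough (Real.sqrt x))).card : ℝ) := by
    exact_mod_cast (card_le_card h2).trans (card_union_le _ _)
  have h4 := card_PB_le (X := Real.sqrt x) (by positivity)
  have h5 : Real.log (Real.sqrt x) = Real.log x / 2 := Real.log_sqrt (by linarith)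
  rw [h5] at h1
  have h6 : C * x / (Real.log x / 2) = 2 * (C * x) / Real.log x := by field_simp
  rw [h6] at h1
  have h7 : 4 * Real.sqrt x + 1 ≤ 20 * x / Real.log x := by
    rw [le_div_iff₀ hlx]
    have h8 : Real.log x ≤ 2 * Real.sqrt x := by
      have := Real.log_le_sub_one_of_pos (show 0 < Real.sqrt x by linarith)
      rw [h5] at this; linarith
    nlinarith
  have h8 : (2 * C + 20) * x / Real.log x = 2 * (C * x) / Real.log x + 20 * x / Real.log x := by
    ring
  rw [h8]; linarith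

/-- **Mertens** type upper bound: `∏_{N p < w} (1 - 1 / N p) ≤ 200 / log w`. -/
theorem prod_PL_le {w : ℝ} (hw : 2 ≤ w) :
    ∏ p ∈ PL w, (1 - (N p : ℝ)⁻¹) ≤ 200 / Real.log w := by
  classical
  have hlw : 0 < Real.log w := Real.log_pos (by linarith)
  have h1 := log_le_LL hw
  have h2 : Selberg.LL (PL w) (fun p => (N p : ℝ)) (w / 2) ≤
      ∏ p ∈ PL w, (((N p : ℝ) - 1)⁻¹ + 1) := by
    rw [Finset.prod_add_one, Selberg.LL]
    apply sum_le_sum_of_subset_of_nonneg (filter_subset _ _)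
    intro S hS _
    rw [mem_powerset] at hS
    exact prod_nonneg fun p hp => inv_nonneg.2 (by linarith [one_lt_N_PL p (hS hp)])
  have h3 : (∏ p ∈ PL w, (((N p : ℝ) - 1)⁻¹ + 1)) * ∏ p ∈ PL w, (1 - (N p : ℝ)⁻¹) = 1 := by
    rw [← prod_mul_distrib]
    apply prod_eq_one
    intro p hp
    have h4 := one_lt_N_PL p hp
    have h5 : (N p : ℝ) - 1 ≠ 0 := by linarith
    have h6 : (N p : ℝ) ≠ 0 := by linarith
    field_simp
    ring
  have h4 : 0 < ∏ p ∈ PL w, (1 - (N p : ℝ)⁻¹) :=
    prod_pos fun p hp => one_sub_inv_N_pos (mem_PL.1 hp).2.1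
  rw [le_div_iff₀ hlw]
  have h5 : Real.log w / 200 * ∏ p ∈ PL w, (1 - (N p : ℝ)⁻¹) ≤ 1 := by
    refine le_trans ?_ h3.le
    exact mul_le_mul_of_nonneg_right (h1.trans h2) h4.le
  linarith

open Filter Topology in
/-- `∏_{N p < w} (1 - 1 / N p) → 0` -/
theorem tendsto_prod_PL :
    Tendsto (fun w : ℝ => ∏ p ∈ PL w, (1 - (N p : ℝ)⁻¹)) atTop (𝓝 0) := by
  have h1 : Tendsto (fun w : ℝ => 200 / Real.log w) atTop (𝓝 0) :=
    Real.tendsto_log_atTop.const_div_atTop 200
  refine squeeze_zero' ?_ ?_ h1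
  · filter_upwards with w
    exact prod_nonneg fun p hp => (one_sub_inv_N_pos (mem_PL.1 hp).2.1).le
  · filter_upwards [eventually_ge_atTop (2 : ℝ)] with w hw
    exact prod_PL_le hw

/-- the product of all primary primes of norm `< w` -/
noncomputable def primorial (w : ℝ) : O := pr (PL w)

theorem phiq_primorial (w : ℝ) : phiq (primorial w) = ∏ p ∈ PL w, (1 - (N p : ℝ)⁻¹) :=
  phiq_pr (isPSet_PL w)

/-! ### Smooth elements -/

/-- the number of prime factors of a smooth squarefree element is large -/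
theorem log_le_card_pdv_mul {z : ℝ} {d : O} (hd : Primary d) (hs : Squarefree d)
    (h : Smooth z d) : Real.log (N d) ≤ (pdv d).card * Real.log z := by
  have h1 : Real.log (N d) = ∑ p ∈ pdv d, Real.log (N p) := by
    conv_lhs => rw [← pr_pdv d hd hs]
    rw [N_pr]; push_cast
    apply Real.log_prod
    intro p hp
    have := Prime.two_le_N ((mem_pdv hd.ne_zero).1 hp).2.1
    positivity
  rw [h1, ← nsmul_eq_mul]
  apply sum_le_card_nsmul
  intro p hp
  have h2 := (mem_pdv hd.ne_zero).1 hp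
  have h3 := Prime.two_le_N h2.2.1
  apply Real.log_le_log (by positivity)
  exact (h p h2.2.1 h2.2.2).le

theorem tau_of_squarefree {d : O} (hd : Primary d) (hs : Squarefree d) :
    tau d = 2 ^ (pdv d).card := by
  classical
  have h1 := sum_sqf_dvs hd (fun e => if Squarefree e then 1 else 0)
    (fun e _ h => by simp [h])
  have h2 : ∑ e ∈ dvs d, (if Squarefree e then 1 else 0) = tau d := by
    rw [tau, card_eq_sum_ones]
    refine sum_congr rfl fun e he => ?_
    rw [mem_dvs hd.ne_zero] at he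
    simp [hs.squarefree_of_dvd he.2]
  have h3 : ∑ S ∈ (pdv d).powerset, (if Squarefree (pr S) then 1 else 0) = 2 ^ (pdv d).card := by
    rw [← card_powerset, card_eq_sum_ones]
    refine sum_congr rfl fun S hS => ?_
    rw [mem_powerset] at hS
    simp [squarefree_pr ((isPSet_pdv hd.ne_zero).mono hS)]
  rw [← h2, h1, h3]

open Classical in
/-- **Smooth squarefree elements are rare**:
`#{d squarefree, D < N d ≤ Y, z-smooth} ≤ Y (4 (1 + log Y))^{2^k} 2^{-k log D / log z}`. -/
theorem card_smooth_le (k : ℕ) {D Y z : ℝ} (hD : 0 < D) (hY : 1 ≤ Y) (hz : 1 < z) :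
    (((SPB Y).filter (fun d => D < N d ∧ Smooth z d)).card : ℝ) ≤
      Y * (4 * (1 + Real.log Y)) ^ (2 ^ k) * (2 : ℝ) ^ (-(k * (Real.log D / Real.log z))) := by
  have hlz : 0 < Real.log z := Real.log_pos hz
  set u : ℝ := Real.log D / Real.log z with hu
  have h1 : ∀ d ∈ (SPB Y).filter (fun d => D < N d ∧ Smooth z d),
      (1 : ℝ) ≤ (tau d : ℝ) ^ k * (2 : ℝ) ^ (-(k * u)) := by
    intro d hd
    rw [mem_filter, mem_SPB] at hd
    obtain ⟨⟨⟨hd1, _⟩, hd2⟩, hd3, hd4⟩ := hd
    have h2 := log_le_card_pdv_mul hd1 hd2 hd4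
    have h3 : Real.log D ≤ Real.log (N d) := Real.log_le_log hD hd3.le
    have h4 : u ≤ (pdv d).card := by
      rw [hu, div_le_iff₀ hlz]; linarith
    rw [tau_of_squarefree hd1 hd2]
    push_cast
    rw [← Real.rpow_natCast, ← Real.rpow_natCast, ← Real.rpow_mul (by norm_num),
      ← Real.rpow_add (by norm_num)]
    apply Real.one_le_rpow (by norm_num)
    have h5 : (0 : ℝ) ≤ k := by positivity
    nlinarith
  calc (((SPB Y).filter (fun d => D < N d ∧ Smooth z d)).card : ℝ)
      = ∑ d ∈ (SPB Y).filter (fun d => D < N d ∧ Smooth z d), (1 : ℝ) := by simp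
    _ ≤ ∑ d ∈ (SPB Y).filter (fun d => D < N d ∧ Smooth z d),
        (tau d : ℝ) ^ k * (2 : ℝ) ^ (-(k * u)) := sum_le_sum h1
    _ ≤ ∑ d ∈ PB Y, (tau d : ℝ) ^ k * (2 : ℝ) ^ (-(k * u)) :=
        sum_le_sum_of_subset_of_nonneg ((filter_subset _ _).trans SPB_subset_PB)
          fun _ _ _ => by positivity
    _ = (∑ d ∈ PB Y, (tau d : ℝ) ^ k) * (2 : ℝ) ^ (-(k * u)) := by rw [sum_mul]
    _ ≤ _ := mul_le_mul_of_nonneg_right (sum_tau_pow_le k hY) (by positivity)

end Vale.Agent.P006
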