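import Vale.Agent.P006.H845.Req
import Vale.Agent.P006.CR.Bridge
import Vale.Agent.PNT.Main

/-!
P006, block ROUGH / PR4 (helper845): the prime number theorem for `ℤ[ω]` and the model sum
`∑ N(π)^{-1/6}` over primary primes.
-/

namespace Vale.Agent.P006

open Finset Filter Topology

/-! ### Sums over primary primes as sums over rational primes -/

/-- the primes `p ≤ n`, `p ≡ 1 mod 3` -/
def P1 (n : ℕ) : Finset ℕ := (Finset.Icc 1 n).filter (fun p => p.Prime ∧ p % 3 = 1)

/-- the primes `q`, `q ≡ 2 mod 3`, `q² ≤ n` -/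
def P2 (n : ℕ) : Finset ℕ := (Finset.Icc 1 n).filter (fun q => q.Prime ∧ q % 3 = 2 ∧ q ^ 2 ≤ n)

theorem mem_PP' {x : ℝ} {π : O} : π ∈ PP x ↔ Primary π ∧ Prime π ∧ N π ≤ ⌊x⌋₊ := by
  rw [mem_PP]
  constructor
  · rintro ⟨⟨h1, h2⟩, h3⟩; exact ⟨h1, h3, (N_le_floor h1).2 h2⟩
  · rintro ⟨h1, h2, h3⟩; exact ⟨⟨h1, (N_le_floor h1).1 h3⟩, h2⟩

/-- the two primary primes above `p ≡ 1 mod 3` -/
theorem card_above {x : ℝ} {p : ℕ} (hp : p ∈ P1 ⌊x⌋₊) :
    ((PP x).filter (fun π => N π = p)).card = 2 := by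
  classical
  rw [P1, mem_filter, Finset.mem_Icc] at hp
  obtain ⟨⟨_, hpx⟩, hpp, hp3⟩ := hp
  obtain ⟨π, hπ, hpπ, hN⟩ := exists_primary_of_prime hpp hp3
  have hne := ne_star_of_N_prime hpp hN
  have h1 : (PP x).filter (fun π => N π = p) = {π, star π} := by
    ext ρ
    rw [mem_filter, mem_PP', mem_insert, mem_singleton]
    constructor
    · rintro ⟨⟨h1, h2, _⟩, h4⟩
      exact eq_or_eq_star_of_N_eq hπ hpπ h2 h1 (by rw [hN, h4])
    · rintro (rfl | rfl)
      · exact ⟨⟨hpπ, hπ, by omega⟩, hN⟩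
      · exact ⟨⟨hpπ.star, prime_star hπ, by rw [N_star]; omega⟩, by rw [N_star, hN]⟩
  rw [h1, card_pair hne]

theorem sum_PP_eq (x : ℝ) (f : ℕ → ℝ) :
    ∑ π ∈ PP x, f (N π) = 2 * ∑ p ∈ P1 ⌊x⌋₊, f p + ∑ q ∈ P2 ⌊x⌋₊, f (q ^ 2) := by
  classical
  rw [← sum_filter_add_sum_filter_not (PP x) (fun π => (N π).Prime)]
  congr 1
  · rw [mul_sum, ← sum_fiberwise_of_maps_to (g := N) (t := P1 ⌊x⌋₊)]
    · refine sum_congr rfl fun p hp => ?_
      have h1 : ((PP x).filter (fun π => (N π).Prime)).filter (fun π => N π = p) =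
          (PP x).filter (fun π => N π = p) := by
        rw [filter_filter]
        apply filter_congr
        intro π _
        constructor
        · exact fun h => h.2
        · intro h
          rw [P1, mem_filter] at hp
          exact ⟨by rw [h]; exact hp.2.1, h⟩
      rw [h1, sum_congr rfl (g := fun _ => f p)]
      · rw [sum_const, card_above hp, nsmul_eq_mul]; push_cast; ring
      · intro π hπ
        rw [mem_filter] at hπ
        rw [hπ.2]
    · intro π hπ
      rw [mem_filter, mem_PP'] at hπ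
      rw [P1, mem_filter, Finset.mem_Icc]
      exact ⟨⟨hπ.1.1.one_le_N, hπ.1.2.2⟩, hπ.2, hπ.1.1.N_mod⟩
  · symm
    refine sum_bij' (fun q _ => -(q : O)) (fun π _ => (-π.re).toNat) ?_ ?_ ?_ ?_ ?_
    · intro q hq
      rw [P2, mem_filter, Finset.mem_Icc] at hq
      obtain ⟨_, hqp, hq3, hqx⟩ := hq
      have hN : N (-(q : O)) = q ^ 2 := by rw [N_neg, N_natCast]
      have hpq : Primary (-(q : O)) := by
        have : -(q : O) = ((-(q : ℤ) : ℤ) : O) := by push_cast; rfl
        rw [this, primary_intCast]; omega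
      have hpr : Prime (-(q : O)) := by
        -- a primary prime divisor `π` of `q` has norm `q` (impossible mod 3) or `q²`
        have hne1 : -(q : O) ≠ 1 := by
          intro h
          have := congrArg N h
          rw [hN, N_one] at this
          have := hqp.two_le
          nlinarith
        obtain ⟨π, hπ⟩ := pdv_nonempty hpq hne1
        rw [mem_pdv hpq.ne_zero] at hπ
        obtain ⟨hpπ, hππ, hd⟩ := hπ
        have h1 : N π ∣ q ^ 2 := hN ▸ N_dvd_N hd
        obtain ⟨k, hk, hk2⟩ := (Nat.dvd_prime_pow hqp).1 h1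
        interval_cases k
        · rw [pow_zero] at hk2
          exact absurd hk2 (by have := Prime.two_le_N hππ; omega)
        · rw [pow_one] at hk2
          have := hpπ.N_mod
          omega
        · obtain ⟨c, hc⟩ := hd
          have h2 : N c = 1 := by
            have h3 := congrArg N hc
            rw [hN, N_mul, hk2] at h3
            exact (Nat.eq_of_mul_eq_mul_left (pow_pos hqp.pos 2) (by rw [mul_one]; exact h3)).symm
          have h3 : Primary c := hpπ.of_mul (hc ▸ hpq)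
          have h4 : c = 1 := h3.eq_one (isUnit_iff_N.2 h2)
          rw [hc, h4, mul_one]; exact hππ
      rw [mem_filter, mem_PP']
      refine ⟨⟨hpq, hpr, by rw [hN]; exact hqx⟩, ?_⟩
      rw [hN]
      exact (Nat.Prime.not_prime_pow (le_refl 2))
    · intro π hπ
      rw [mem_filter, mem_PP'] at hπ
      obtain ⟨⟨h1, h2, h3⟩, h4⟩ := hπ
      rcases primary_prime_cases h2 h1 with h | ⟨q, hq, hq3, hqπ, hqN⟩
      · exact absurd h.1 h4
      · have h5 : (-π.re).toNat = q := by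
          rw [hqπ]; simp
        rw [h5, P2, mem_filter, Finset.mem_Icc]
        have h6 : q ^ 2 ≤ ⌊x⌋₊ := by rw [← hqN]; exact h3
        have h7 := hq.two_le
        exact ⟨⟨by omega, by nlinarith⟩, hq, hq3, h6⟩
    · intro q _; simp
    · intro π hπ
      rw [mem_filter, mem_PP'] at hπ
      obtain ⟨⟨h1, h2, h3⟩, h4⟩ := hπ
      rcases primary_prime_cases h2 h1 with h | ⟨q, hq, hq3, hqπ, hqN⟩
      · exact absurd h.1 h4
      · rw [hqπ]; simp
    · intro q _
      rw [N_neg, N_natCast]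

/-! ### The prime number theorem for `ℤ[ω]` -/

/-- Chebyshev's function of `ℤ[ω]` (primary primes) -/
noncomputable def thetaO (x : ℝ) : ℝ := ∑ π ∈ PP x, Real.log (N π)

theorem sum_P1_log (x : ℝ) :
    ∑ p ∈ P1 ⌊x⌋₊, Real.log p = PNT.thetaAP (q := 3) 1 x := by
  unfold P1 PNT.thetaAP
  congr 1
  apply filter_congr
  intro p _
  have h : (p : ZMod 3) = 1 ↔ p % 3 = 1 := by
    have h1 := ZMod.natCast_eq_natCast_iff' p 1 3
    rw [Nat.cast_one] at h1
    rw [h1]
  rw [h]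

theorem card_P2_le (n : ℕ) : ((P2 n).card : ℝ) ≤ Real.sqrt n := by
  have h1 : P2 n ⊆ Finset.Icc 1 (Nat.sqrt n) := by
    intro q hq
    rw [P2, mem_filter, Finset.mem_Icc] at hq
    rw [Finset.mem_Icc]
    refine ⟨hq.1.1, ?_⟩
    rw [Nat.le_sqrt', ]
    exact hq.2.2.2
  have h2 := card_le_card h1
  rw [Nat.card_Icc] at h2
  have h3 : (P2 n).card ≤ Nat.sqrt n := by omega
  have h4 : ((P2 n).card : ℝ) ≤ (Nat.sqrt n : ℝ) := by exact_mod_cast h3
  exact h4.trans Real.nat_sqrt_le_real_sqrt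

theorem thetaO_div_tendsto : Tendsto (fun x : ℝ => thetaO x / x) atTop (𝓝 1) := by
  have h1 := PNT.thetaAP_div_tendsto (q := 3) (a := 1) isUnit_one
  have h2 : ((Nat.totient 3 : ℕ) : ℝ)⁻¹ = 1 / 2 := by
    have : Nat.totient 3 = 2 := by decide
    rw [this]; norm_num
  rw [h2] at h1
  -- the inert part
  have h3 : Tendsto (fun x : ℝ => (∑ q ∈ P2 ⌊x⌋₊, Real.log ((q ^ 2 : ℕ) : ℝ)) / x) atTop (𝓝 0) := by
    have h4 : Tendsto (fun x : ℝ => Real.sqrt x * Real.log x / x) atTop (𝓝 0) := by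
      have h5 : (fun x : ℝ => Real.log x) =o[atTop] fun x : ℝ => x ^ (1 / 2 : ℝ) :=
        isLittleO_log_rpow_atTop (by norm_num)
      refine h5.tendsto_div_nhds_zero.congr' ?_
      filter_upwards [eventually_gt_atTop 0] with x hx
      have h6 : Real.sqrt x * Real.sqrt x = x := Real.mul_self_sqrt hx.le
      have h7 : 0 < Real.sqrt x := Real.sqrt_pos.2 hx
      rw [← Real.sqrt_eq_rpow]
      rw [div_eq_div_iff h7.ne' hx.ne']
      linear_combination (-Real.log x) * h6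
    refine squeeze_zero' ?_ ?_ h4
    · filter_upwards [eventually_gt_atTop 0] with x hx
      exact div_nonneg (sum_nonneg fun q _ => Real.log_natCast_nonneg _) hx.le
    · filter_upwards [eventually_gt_atTop 1] with x hx
      apply div_le_div_of_nonneg_right _ (by linarith)
      have h5 : ∀ q ∈ P2 ⌊x⌋₊, Real.log ((q ^ 2 : ℕ) : ℝ) ≤ Real.log x := by
        intro q hq
        rw [P2, mem_filter, Finset.mem_Icc] at hq
        apply Real.log_le_log
        · have := hq.2.1.pos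
          positivity
        · exact le_trans (by exact_mod_cast hq.2.2.2) (Nat.floor_le (by linarith))
      refine (sum_le_card_nsmul _ _ _ h5).trans ?_
      rw [nsmul_eq_mul]
      apply mul_le_mul_of_nonneg_right _ (Real.log_nonneg hx.le)
      refine (card_P2_le _).trans (Real.sqrt_le_sqrt (Nat.floor_le (by linarith)))
  have h4 : Tendsto (fun x : ℝ => 2 * (PNT.thetaAP (q := 3) 1 x / x) +
      (∑ q ∈ P2 ⌊x⌋₊, Real.log ((q ^ 2 : ℕ) : ℝ)) / x) atTop (𝓝 (2 * (1 / 2) + 0)) :=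
    (h1.const_mul 2).add h3
  rw [show (2 : ℝ) * (1 / 2) + 0 = 1 by norm_num] at h4
  refine h4.congr fun x => ?_
  unfold thetaO
  have h5 := sum_PP_eq x (fun n => Real.log n)
  rw [h5, sum_P1_log]
  ring

/-! ### Abel summation -/

/-- if the partial sums are `≤ ε k + C` then the weighted sum is `≤ ε ∑ f + C f(1)` -/
theorem sum_mul_le_of_partial' (a f : ℕ → ℝ) (ε C : ℝ) (M : ℕ) (hM : 1 ≤ M)
    (hA : ∀ k, 1 ≤ k → k ≤ M → ∑ n ∈ Finset.Icc 1 k, a n ≤ ε * k + C)
    (hf : ∀ k, 1 ≤ k → k < M → f (k + 1) ≤ f k) (hf0 : 0 ≤ f M) :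
    ∑ n ∈ Finset.Icc 1 M, a n * f n ≤ ε * ∑ n ∈ Finset.Icc 1 M, f n + C * f 1 := by
  have h1 := sum_mul_le_of_partial (fun n => a n - if n = 1 then C else 0) f ε M ?_ hf
    (fun _ => hf0)
  · have h2 : ∑ n ∈ Finset.Icc 1 M, (a n - if n = 1 then C else 0) * f n =
        ∑ n ∈ Finset.Icc 1 M, a n * f n - C * f 1 := by
      simp only [sub_mul, sum_sub_distrib]
      congr 1
      have h3 : ∀ n ∈ Finset.Icc 1 M, (if n = 1 then C else 0) * f n =
          if n = 1 then C * f 1 else 0 := by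
        intro n _
        by_cases h : n = 1
        · subst h; simp
        · simp [h]
      rw [sum_congr rfl h3, sum_ite_eq']
      simp [hM]
    linarith
  · intro k hk
    by_cases hk0 : k = 0
    · subst hk0; simp
    · have hk1 : 1 ≤ k := Nat.one_le_iff_ne_zero.2 hk0
      have h2 := hA k hk1 hk
      have h3 : ∑ n ∈ Finset.Icc 1 k, (a n - if n = 1 then C else 0) =
          ∑ n ∈ Finset.Icc 1 k, a n - C := by
        rw [sum_sub_distrib, sum_ite_eq']
        simp [hk1]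
      rw [h3]; linarith

theorem le_sum_Icc_rpow_neg {s : ℝ} (hs0 : 0 ≤ s) (hs : s < 1) (M : ℕ) :
    (((M : ℝ) + 1) ^ (1 - s) - 1) / (1 - s) ≤ ∑ n ∈ Finset.Icc 1 M, (n : ℝ) ^ (-s) := by
  have hs' : 0 < 1 - s := by linarith
  induction M with
  | zero => simp
  | succ M ih =>
    rw [sum_Icc_succ_top (by omega)]
    have h1 : (0 : ℝ) < ((M + 1 : ℕ) : ℝ) := by positivity
    have h2 : (((M + 1 : ℕ) : ℝ) + 1) ^ (1 - s) ≤
        ((M + 1 : ℕ) : ℝ) ^ (1 - s) + (1 - s) * ((M + 1 : ℕ) : ℝ) ^ (-s) := by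
      have h3 : ((M + 1 : ℕ) : ℝ) + 1 = ((M + 1 : ℕ) : ℝ) * (1 + (((M + 1 : ℕ) : ℝ))⁻¹) := by
        field_simp
      rw [h3, Real.mul_rpow h1.le (by positivity)]
      have h4 := rpow_one_add_le_one_add_mul_self (s := (((M + 1 : ℕ) : ℝ))⁻¹) (p := 1 - s)
        (by have : 0 < (((M + 1 : ℕ) : ℝ))⁻¹ := by positivity
            linarith) hs'.le (by linarith)
      have h5 : ((M + 1 : ℕ) : ℝ) ^ (-s) =
          ((M + 1 : ℕ) : ℝ) ^ (1 - s) * (((M + 1 : ℕ) : ℝ))⁻¹ := by
        rw [← Real.rpow_neg_one, ← Real.rpow_add h1]; congr 1; ring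
      rw [h5]
      have h6 : 0 < ((M + 1 : ℕ) : ℝ) ^ (1 - s) := Real.rpow_pos_of_pos h1 _
      nlinarith
    have h7 : ((((M + 1 : ℕ) : ℝ) + 1) ^ (1 - s) - 1) / (1 - s) ≤
        (((M : ℝ) + 1) ^ (1 - s) - 1) / (1 - s) + ((M + 1 : ℕ) : ℝ) ^ (-s) := by
      rw [div_add' _ _ _ hs'.ne']
      apply div_le_div_of_nonneg_right _ hs'.le
      push_cast at h2 ⊢
      linarith
    linarith

theorem tendsto_floor_rpow {b : ℝ} (hb : 0 < b) :
    Tendsto (fun x : ℝ => (⌊x⌋₊ : ℝ) ^ b / x ^ b) atTop (𝓝 1) := by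
  have h1 : Tendsto (fun x : ℝ => (⌊x⌋₊ : ℝ) / x) atTop (𝓝 1) := tendsto_nat_floor_div_atTop
  have h2 := h1.rpow_const (p := b) (Or.inr hb.le)
  rw [Real.one_rpow] at h2
  refine h2.congr' ?_
  filter_upwards [eventually_gt_atTop 0] with x hx
  rw [Real.div_rpow (by positivity) hx.le]

theorem tendsto_sum_Icc_rpow_neg {s : ℝ} (hs0 : 0 ≤ s) (hs : s < 1) :
    Tendsto (fun x : ℝ => (∑ n ∈ Finset.Icc 1 ⌊x⌋₊, (n : ℝ) ^ (-s)) / x ^ (1 - s)) atTop
      (𝓝 (1 / (1 - s))) := by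
  have hs' : 0 < 1 - s := by linarith
  have h1 : Tendsto (fun x : ℝ => ((⌊x⌋₊ : ℝ) ^ (1 - s) / x ^ (1 - s)) * (1 / (1 - s))) atTop
      (𝓝 (1 / (1 - s))) := by
    have := (tendsto_floor_rpow hs').mul_const (1 / (1 - s))
    rwa [one_mul] at this
  have h2 : Tendsto (fun x : ℝ => (1 - 1 / x ^ (1 - s)) * (1 / (1 - s))) atTop
      (𝓝 (1 / (1 - s))) := by
    have h3 : Tendsto (fun x : ℝ => 1 / x ^ (1 - s)) atTop (𝓝 0) :=
      (tendsto_rpow_atTop hs').const_div_atTop 1
    have := (h3.const_sub 1).mul_const (1 / (1 - s))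
    rwa [sub_zero, one_mul] at this
  refine tendsto_of_tendsto_of_tendsto_of_le_of_le' h2 h1 ?_ ?_
  · filter_upwards [eventually_gt_atTop 1] with x hx
    have hx0 : 0 < x ^ (1 - s) := Real.rpow_pos_of_pos (by linarith) _
    have h3 := le_sum_Icc_rpow_neg hs0 hs ⌊x⌋₊
    have h4 : x ^ (1 - s) ≤ ((⌊x⌋₊ : ℝ) + 1) ^ (1 - s) :=
      Real.rpow_le_rpow (by linarith) (Nat.lt_floor_add_one x).le hs'.le
    rw [le_div_iff₀ hx0]
    refine le_trans ?_ h3
    have e1 : (1 - 1 / x ^ (1 - s)) * (1 / (1 - s)) * x ^ (1 - s) =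
        (x ^ (1 - s) - 1) / (1 - s) := by
      field_simp
    rw [e1]
    apply div_le_div_of_nonneg_right _ hs'.le
    linarith
  · filter_upwards [eventually_gt_atTop 1] with x hx
    have h3 := sum_Icc_rpow_neg_le hs0 hs ⌊x⌋₊
    have hx0 : 0 < x ^ (1 - s) := Real.rpow_pos_of_pos (by linarith) _
    rw [div_le_iff₀ hx0]
    refine h3.trans (le_of_eq ?_)
    field_simp

/-! ### The model sum -/

theorem thetaO_fiber (x : ℝ) (f : ℕ → ℝ) :
    ∑ π ∈ PP x, Real.log (N π) * f (N π) = ∑ n ∈ Finset.Icc 1 ⌊x⌋₊,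
      (∑ π ∈ (PP x).filter (fun π => N π = n), Real.log (N π)) * f n := by
  rw [← sum_fiberwise_of_maps_to (g := N) (t := Finset.Icc 1 ⌊x⌋₊)]
  · refine sum_congr rfl fun n _ => ?_
    rw [sum_mul]
    refine sum_congr rfl fun π hπ => ?_
    rw [mem_filter] at hπ
    rw [hπ.2]
  · intro π hπ
    rw [mem_PP'] at hπ
    rw [Finset.mem_Icc]
    exact ⟨hπ.1.one_le_N, hπ.2.2⟩

theorem thetaO_partial {x : ℝ} {k : ℕ} (hk : k ≤ ⌊x⌋₊) :
    ∑ n ∈ Finset.Icc 1 k, (∑ π ∈ (PP x).filter (fun π => N π = n), Real.log (N π)) =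
      thetaO k := by
  unfold thetaO
  rw [← sum_fiberwise_of_maps_to (s := PP (k : ℝ)) (g := N) (t := Finset.Icc 1 k)]
  · refine sum_congr rfl fun n hn => ?_
    rw [Finset.mem_Icc] at hn
    refine sum_congr ?_ fun _ _ => rfl
    ext π
    rw [mem_filter, mem_filter, mem_PP', mem_PP', Nat.floor_natCast]
    constructor
    · rintro ⟨⟨h1, h2, _⟩, h4⟩; exact ⟨⟨h1, h2, by omega⟩, h4⟩
    · rintro ⟨⟨h1, h2, _⟩, h4⟩; exact ⟨⟨h1, h2, by omega⟩, h4⟩
  · intro π hπ
    rw [mem_PP', Nat.floor_natCast] at hπ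
    rw [Finset.mem_Icc]
    exact ⟨hπ.1.one_le_N, hπ.2.2⟩

/-- `∑ log N(π) N(π)^{-s} ~ x^{1-s} / (1-s)` -/
theorem tendsto_sum_log_rpow {s : ℝ} (hs0 : 0 ≤ s) (hs : s < 1) :
    Tendsto (fun x : ℝ => (∑ π ∈ PP x, Real.log (N π) * (N π : ℝ) ^ (-s)) / x ^ (1 - s)) atTop
      (𝓝 (1 / (1 - s))) := by
  have hs' : 0 < 1 - s := by linarith
  have hmain := tendsto_sum_Icc_rpow_neg hs0 hs
  -- the difference tends to `0`
  have hanti : ∀ k : ℕ, 1 ≤ k → ((k + 1 : ℕ) : ℝ) ^ (-s) ≤ (k : ℝ) ^ (-s) := by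
    intro k hk
    have h0 : (0 : ℝ) < k := by exact_mod_cast hk
    exact Real.rpow_le_rpow_of_nonpos h0 (by push_cast; linarith) (by linarith)
  have hdiff : Tendsto (fun x : ℝ => (∑ π ∈ PP x, Real.log (N π) * (N π : ℝ) ^ (-s)) / x ^ (1 - s) -
      (∑ n ∈ Finset.Icc 1 ⌊x⌋₊, (n : ℝ) ^ (-s)) / x ^ (1 - s)) atTop (𝓝 0) := by
    rw [Metric.tendsto_atTop]
    intro ε hε
    -- `|θ(k) - k| ≤ ε' k + C`
    set ε' : ℝ := ε * (1 - s) / 4 with hε'
    have hε'0 : 0 < ε' := by positivity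
    obtain ⟨C, hC0, hC⟩ : ∃ C : ℝ, 0 ≤ C ∧ ∀ k : ℕ, |thetaO k - k| ≤ ε' * k + C := by
      have h1 := thetaO_div_tendsto.comp (tendsto_natCast_atTop_atTop (R := ℝ))
      have h2 := (Metric.tendsto_atTop.1 h1) ε' hε'0
      obtain ⟨K, hK⟩ := h2
      refine ⟨∑ k ∈ Finset.range K, |thetaO k - k|, sum_nonneg fun _ _ => abs_nonneg _, ?_⟩
      intro k
      by_cases hk : K ≤ k
      · have h3 := hK k hk
        have hs0 : 0 ≤ ∑ k ∈ Finset.range K, |thetaO k - k| := sum_nonneg fun _ _ => abs_nonneg _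
        by_cases hk0 : k = 0
        · subst hk0
          have : K = 0 := by omega
          subst this
          simp [thetaO, PP, PB_eq_empty]
        · have hkp : (0 : ℝ) < k := by exact_mod_cast Nat.pos_of_ne_zero hk0
          simp only [Function.comp_apply, Real.dist_eq] at h3
          have h4 : |thetaO k - k| = |thetaO k / k - 1| * k := by
            rw [← abs_of_pos hkp, ← abs_mul, abs_of_pos hkp]
            congr 1
            field_simp
          rw [h4]
          nlinarith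
      · push Not at hk
        have h3 : |thetaO k - k| ≤ ∑ k ∈ Finset.range K, |thetaO k - k| :=
          single_le_sum (f := fun k : ℕ => |thetaO k - k|) (fun _ _ => abs_nonneg _)
            (Finset.mem_range.2 hk)
        have : 0 ≤ ε' * k := by positivity
        linarith
    -- large `x`
    have h5 : Tendsto (fun x : ℝ => C / x ^ (1 - s)) atTop (𝓝 0) :=
      (tendsto_rpow_atTop hs').const_div_atTop C
    obtain ⟨x0, hx0⟩ := (Metric.tendsto_atTop.1 h5) (ε / 2) (by positivity)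
    refine ⟨max x0 2, fun x hx => ?_⟩
    have hx1 : x0 ≤ x := (le_max_left _ _).trans hx
    have hx2 : 2 ≤ x := (le_max_right _ _).trans hx
    have hxp : 0 < x ^ (1 - s) := Real.rpow_pos_of_pos (by linarith) _
    have h6 := hx0 x hx1
    rw [Real.dist_eq, sub_zero, abs_of_nonneg (by positivity)] at h6
    have hM : 1 ≤ ⌊x⌋₊ := (Nat.one_le_floor_iff x).2 (by linarith)
    set a : ℕ → ℝ := fun n => ∑ π ∈ (PP x).filter (fun π => N π = n), Real.log (N π) with ha
    have hup := sum_mul_le_of_partial' (fun n => a n - 1) (fun n => (n : ℝ) ^ (-s)) ε' C ⌊x⌋₊ hM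
      ?_ (fun k hk _ => hanti k hk) (by positivity)
    have hlow := sum_mul_le_of_partial' (fun n => 1 - a n) (fun n => (n : ℝ) ^ (-s)) ε' C ⌊x⌋₊ hM
      ?_ (fun k hk _ => hanti k hk) (by positivity)
    · have h7 := sum_Icc_rpow_neg_le hs0 hs ⌊x⌋₊
      have h8 : (⌊x⌋₊ : ℝ) ^ (1 - s) ≤ x ^ (1 - s) :=
        Real.rpow_le_rpow (by positivity) (Nat.floor_le (by linarith)) hs'.le
      have h9 : ε' * ∑ n ∈ Finset.Icc 1 ⌊x⌋₊, (n : ℝ) ^ (-s) ≤ ε / 4 * x ^ (1 - s) := by
        calc ε' * ∑ n ∈ Finset.Icc 1 ⌊x⌋₊, (n : ℝ) ^ (-s) ≤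
              ε' * ((⌊x⌋₊ : ℝ) ^ (1 - s) / (1 - s)) := by gcongr
          _ = ε / 4 * (⌊x⌋₊ : ℝ) ^ (1 - s) := by rw [hε']; field_simp
          _ ≤ _ := by gcongr
      have h10 : ∑ π ∈ PP x, Real.log (N π) * (N π : ℝ) ^ (-s) =
          ∑ n ∈ Finset.Icc 1 ⌊x⌋₊, a n * (n : ℝ) ^ (-s) :=
        thetaO_fiber x (fun n => (n : ℝ) ^ (-s))
      have h11 : C / x ^ (1 - s) * x ^ (1 - s) = C := by field_simp
      rw [Real.dist_eq, sub_zero, ← sub_div, abs_div, abs_of_pos hxp, div_lt_iff₀ hxp, h10]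
      simp only [sub_mul, sum_sub_distrib, one_mul, Nat.cast_one, Real.one_rpow, mul_one]
        at hup hlow
      rw [abs_lt]
      constructor
      · nlinarith
      · nlinarith
    · intro k hk1 hk
      rw [sum_sub_distrib, ha, thetaO_partial hk]
      have := (abs_le.1 (hC k)).1
      simp only [sum_const, Nat.card_Icc, Nat.add_sub_cancel, nsmul_eq_mul, mul_one]
      linarith
    · intro k hk1 hk
      rw [sum_sub_distrib, ha, thetaO_partial hk]
      have := (abs_le.1 (hC k)).2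
      simp only [sum_const, Nat.card_Icc, Nat.add_sub_cancel, nsmul_eq_mul, mul_one]
      linarith
  have := hdiff.add hmain
  simpa using this

/-- **Model sum**: `∑_{N π ≤ x} N(π)^{-s} ~ x^{1-s} / ((1-s) log x)` over primary primes -/
theorem tendsto_sum_rpow {s : ℝ} (hs0 : 0 ≤ s) (hs : s < 1) :
    Tendsto (fun x : ℝ => (∑ π ∈ PP x, (N π : ℝ) ^ (-s)) * Real.log x / x ^ (1 - s)) atTop
      (𝓝 (1 / (1 - s))) := by
  have hs' : 0 < 1 - s := by linarith
  have hT := tendsto_sum_log_rpow hs0 hs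
  rw [tendsto_order]
  constructor
  · intro b hb
    filter_upwards [hT.eventually (lt_mem_nhds hb), eventually_gt_atTop 1] with x hx hx0
    refine lt_of_lt_of_le hx ?_
    apply div_le_div_of_nonneg_right _ (Real.rpow_nonneg (by linarith) _)
    rw [sum_mul]
    refine sum_le_sum fun π hπ => ?_
    rw [mem_PP] at hπ
    rw [mul_comm]
    have h1 := hπ.1.1.one_le_N'
    exact mul_le_mul_of_nonneg_left (Real.log_le_log (by linarith) hπ.1.2) (by positivity)
  · intro b hb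
    -- choose `c < 1` with `1/((1-s) c) < b`
    have h1 : Tendsto (fun n : ℕ => 1 / (1 - s) / (1 - 1 / ((n : ℝ) + 1))) atTop
        (𝓝 (1 / (1 - s) / (1 - 0))) :=
      tendsto_const_nhds.div (tendsto_const_nhds.sub tendsto_one_div_add_atTop_nhds_zero_nat)
        (by norm_num)
    rw [sub_zero, div_one] at h1
    obtain ⟨n, hn, hn1⟩ := ((h1.eventually (gt_mem_nhds hb)).and (eventually_ge_atTop 1)).exists
    set c : ℝ := 1 - 1 / ((n : ℝ) + 1) with hc
    have hn1' : (1 : ℝ) ≤ n := by exact_mod_cast hn1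
    have hc0 : 0 < c := by
      rw [hc, sub_pos, div_lt_one (by positivity)]
      linarith
    have hc1 : c < 1 := by
      rw [hc]
      have : 0 < 1 / ((n : ℝ) + 1) := by positivity
      linarith
    have h2 : Tendsto (fun x : ℝ => 4 / (1 - s) * (x ^ ((1 - s) * c) * Real.log x / x ^ (1 - s)) +
        (∑ π ∈ PP x, Real.log (N π) * (N π : ℝ) ^ (-s)) / x ^ (1 - s) / c) atTop
        (𝓝 (4 / (1 - s) * 0 + 1 / (1 - s) / c)) := by
      refine Tendsto.add (Tendsto.const_mul _ ?_) (hT.div_const c)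
      have h3 : (fun x : ℝ => Real.log x) =o[atTop] fun x : ℝ => x ^ ((1 - s) * (1 - c)) :=
        isLittleO_log_rpow_atTop (mul_pos hs' (by linarith))
      refine h3.tendsto_div_nhds_zero.congr' ?_
      filter_upwards [eventually_gt_atTop 0] with x hx
      have e1 : (1 - s) * (1 - c) = (1 - s) - (1 - s) * c := by ring
      rw [e1, Real.rpow_sub hx]
      have h4 : x ^ ((1 - s) * c) ≠ 0 := (Real.rpow_pos_of_pos hx _).ne'
      have h5 : x ^ (1 - s) ≠ 0 := (Real.rpow_pos_of_pos hx _).ne'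
      field_simp
    rw [mul_zero, zero_add] at h2
    filter_upwards [h2.eventually (gt_mem_nhds hn), eventually_gt_atTop 1] with x hx hx1
    refine lt_of_le_of_lt ?_ hx
    have hlx : 0 < Real.log x := Real.log_pos hx1
    have hx0 : 0 < x := by linarith
    have hxp : 0 < x ^ (1 - s) := Real.rpow_pos_of_pos hx0 _
    have hxc : 1 ≤ x ^ c := Real.one_le_rpow hx1.le hc0.le
    -- split at `x^c`
    have h3 : ∑ π ∈ PP x, (N π : ℝ) ^ (-s) ≤ ∑ c' ∈ PB (x ^ c), (N c' : ℝ) ^ (-s) +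
        (∑ π ∈ PP x, Real.log (N π) * (N π : ℝ) ^ (-s)) / (c * Real.log x) := by
      classical
      rw [← sum_filter_add_sum_filter_not (PP x) (fun π => (N π : ℝ) ≤ x ^ c)]
      refine add_le_add ?_ ?_
      · apply sum_le_sum_of_subset_of_nonneg
        · intro π hπ
          rw [mem_filter, mem_PP] at hπ
          rw [mem_PB]; exact ⟨hπ.1.1.1, hπ.2⟩
        · intro _ _ _; positivity
      · rw [sum_div]
        refine (sum_le_sum (g := fun π => Real.log (N π) * (N π : ℝ) ^ (-s) / (c * Real.log x))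
          fun π hπ => ?_).trans (sum_le_sum_of_subset_of_nonneg (filter_subset _ _) ?_)
        · rw [mem_filter, mem_PP, not_le] at hπ
          rw [le_div_iff₀ (by positivity), mul_comm]
          apply mul_le_mul_of_nonneg_right _ (by positivity)
          have := Real.log_le_log (by linarith) hπ.2.le
          rwa [Real.log_rpow hx0] at this
        · intro π hπ _
          rw [mem_PP] at hπ
          have := Real.log_nonneg hπ.1.1.one_le_N'
          positivity
    have h4 := sum_PB_rpow_neg_le hs0 hs (X := x ^ c) (by positivity)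
    rw [← Real.rpow_mul hx0.le, mul_comm c] at h4
    calc (∑ π ∈ PP x, (N π : ℝ) ^ (-s)) * Real.log x / x ^ (1 - s)
        ≤ (4 / (1 - s) * x ^ ((1 - s) * c) +
          (∑ π ∈ PP x, Real.log (N π) * (N π : ℝ) ^ (-s)) / (c * Real.log x)) *
            Real.log x / x ^ (1 - s) := by
          gcongr
          linarith
      _ = _ := by
          field_simp

/-- the number of primary primes: `#PP x ~ x / log x` -/
theorem tendsto_card_PP :
    Tendsto (fun x : ℝ => ((PP x).card : ℝ) * Real.log x / x) atTop (𝓝 1) := by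
  have := tendsto_sum_rpow (s := 0) le_rfl one_pos
  simpa using this

/-- the model sum of P006: `∑_{N π ≤ x} N(π)^{-1/6} ~ (6/5) x^{5/6} / log x` -/
theorem tendsto_model :
    Tendsto (fun x : ℝ => (∑ π ∈ PP x, (N π : ℝ) ^ (-(1 / 6) : ℝ)) * (Real.log x / x ^ (5 / 6 : ℝ)))
      atTop (𝓝 (6 / 5)) := by
  have h := tendsto_sum_rpow (s := 1 / 6) (by norm_num) (by norm_num)
  have e1 : (1 : ℝ) - 1 / 6 = 5 / 6 := by norm_num
  have e2 : (1 : ℝ) / (5 / 6) = 6 / 5 := by norm_num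
  rw [e1, e2] at h
  refine h.congr fun x => ?_
  rw [mul_div_assoc]

end Vale.Agent.P006
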