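import Vale.Agent.P006.H845.Sieve

/-!
P006, block ROUGH (helper845): corollaries in the shapes asked for by the other blocks:
rough elements counted with `z = X^η`, existence of `W` with small `φ(W)/N(W)`, reciprocal sums of
rough elements.
-/

namespace Vale.Agent.P006

open Finset

open Classical in
/-- (RC) `#{a primary, X^η-rough, N a ≤ y} ≤ C_η y / log X` for `X^{1/4} ≤ y ≤ X`. -/
theorem card_rough_rpow_le {η : ℝ} (hη : 0 < η) : ∃ C : ℝ, 1 ≤ C ∧ ∀ X y : ℝ, 3 ≤ X →
    X ^ (1 / 4 : ℝ) ≤ y → (((PB y).filter (Rough (X ^ η))).card : ℝ) ≤ C * y / Real.log X := by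
  obtain ⟨C, hC, h⟩ := card_rough_le
  refine ⟨C / η + 4 / η + 8, by
    have : 0 < C / η := by positivity
    have : 0 < 4 / η := by positivity
    linarith, ?_⟩
  intro X y hX hy
  have hlX : 0 < Real.log X := Real.log_pos (by linarith)
  have hX14 : 1 ≤ X ^ (1 / 4 : ℝ) := Real.one_le_rpow (by linarith) (by norm_num)
  have hy1 : 1 ≤ y := hX14.trans hy
  have hlog4 : Real.log X ≤ 4 * y := by
    have h1 := Real.log_le_sub_one_of_pos (show 0 < X ^ (1 / 4 : ℝ) by linarith)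
    rw [Real.log_rpow (by linarith)] at h1
    linarith
  have e0 : (C / η + 4 / η + 8) * y / Real.log X =
      C * y / (η * Real.log X) + 4 / η * y / Real.log X + 8 * y / Real.log X := by
    field_simp
  rw [e0]
  have p1 : 0 ≤ C * y / (η * Real.log X) := by positivity
  have p2 : 0 ≤ 4 / η * y / Real.log X := by positivity
  have p3 : 1 ≤ 8 * y / Real.log X := by
    rw [le_div_iff₀ hlX]; linarith
  by_cases hz : X ^ η < 2
  · -- `log X ≤ log 2 / η ≤ 1 / η`
    have h1 : η * Real.log X ≤ 1 := by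
      rw [← Real.log_rpow (by linarith)]
      have h2 : Real.log (X ^ η) ≤ Real.log 2 :=
        Real.log_le_log (Real.rpow_pos_of_pos (by linarith) _) hz.le
      linarith [Real.log_two_lt_d9]
    have h2 : (((PB y).filter (Rough (X ^ η))).card : ℝ) ≤ 4 * y :=
      le_trans (by exact_mod_cast card_le_card (filter_subset _ _)) (card_PB_le (by linarith))
    have h3 : 4 * y ≤ 4 / η * y / Real.log X := by
      rw [div_mul_eq_mul_div, div_div, le_div_iff₀ (by positivity)]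
      nlinarith
    linarith
  · push Not at hz
    have h1 := h y (X ^ η) hy1 hz
    rw [Real.log_rpow (by linarith)] at h1
    linarith

open Classical in
/-- (RC) for squarefree elements -/
theorem card_sqf_rough_rpow_le {η : ℝ} (hη : 0 < η) : ∃ C : ℝ, 1 ≤ C ∧ ∀ X y : ℝ, 3 ≤ X →
    X ^ (1 / 4 : ℝ) ≤ y → (((SPB y).filter (Rough (X ^ η))).card : ℝ) ≤ C * y / Real.log X := by
  obtain ⟨C, hC, h⟩ := card_rough_rpow_le hη
  refine ⟨C, hC, fun X y hX hy => le_trans ?_ (h X y hX hy)⟩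
  exact_mod_cast card_le_card (filter_subset_filter _ SPB_subset_PB)

/-- (M) there are squarefree primary `W` with `φ(W)/N(W)` arbitrarily small, all of whose prime
factors are smaller than a given bound depending on `ε` only -/
theorem exists_phiq_lt {ε : ℝ} (hε : 0 < ε) : ∃ W : O, Primary W ∧ Squarefree W ∧ phiq W < ε := by
  have h1 := tendsto_prod_PL.eventually (gt_mem_nhds hε)
  obtain ⟨w, hw⟩ := h1.exists
  refine ⟨primorial w, primary_pr (isPSet_PL w), squarefree_pr (isPSet_PL w), ?_⟩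
  rw [phiq_primorial]; exact hw

/-- a rough element is coprime to `W` once all primes of `W` are below `z` -/
theorem Rough.isCoprime {z : ℝ} {a W : O} (ha : Rough z a) (hW : Primary W) (hz : Smooth z W) :
    IsCoprime a W := by
  rw [← isRelPrime_iff_isCoprime]
  exact (isRelPrime_smooth_rough hW hz ha).symm

theorem smooth_of_N_lt {z : ℝ} {W : O} (hW : W ≠ 0) (h : (N W : ℝ) < z) : Smooth z W := by
  intro p _ hpW
  have : (N p : ℝ) ≤ N W := by exact_mod_cast Nat.le_of_dvd (N_pos hW) (N_dvd_N hpW)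
  linarith

/-- majorisation for a subset of the primary elements -/
theorem sum_filter_PB_le (Q : O → Prop) [DecidablePred Q] {f : ℕ → ℝ} {C : ℝ} (X : ℝ)
    (hQ : ∀ k : ℕ, 1 ≤ k → k ≤ ⌊X⌋₊ → (((PB k).filter Q).card : ℝ) ≤ C * k)
    (hf : ∀ k, 1 ≤ k → f (k + 1) ≤ f k) (hf0 : ∀ k, 1 ≤ k → 0 ≤ f k) :
    ∑ c ∈ (PB X).filter Q, f (N c) ≤ C * ∑ n ∈ Finset.Icc 1 ⌊X⌋₊, f n := by
  have h1 : ∑ c ∈ (PB X).filter Q, f (N c) =
      ∑ n ∈ Finset.Icc 1 ⌊X⌋₊, ((((PB X).filter Q).filter (fun c => N c = n)).card : ℝ) * f n := by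
    rw [← sum_fiberwise_of_maps_to (g := N) (t := Finset.Icc 1 ⌊X⌋₊)]
    · refine sum_congr rfl fun n _ => ?_
      rw [sum_congr rfl (g := fun _ => f n)]
      · rw [sum_const, nsmul_eq_mul]
      · intro c hc
        rw [mem_filter] at hc
        rw [hc.2]
    · intro c hc
      rw [mem_filter, mem_PB] at hc
      rw [Finset.mem_Icc]
      exact ⟨hc.1.1.one_le_N, (N_le_floor hc.1.1).2 hc.1.2⟩
  rw [h1]
  apply sum_mul_le_of_partial
  · intro k hk
    have h2 : ∑ n ∈ Finset.Icc 1 k, ((((PB X).filter Q).filter (fun c => N c = n)).card : ℝ) =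
        (((PB k).filter Q).card : ℝ) := by
      rw [← Nat.cast_sum]
      congr 1
      rw [card_eq_sum_card_fiberwise (f := N) (t := Finset.Icc 1 k) (s := (PB (k : ℝ)).filter Q)]
      · refine sum_congr rfl fun n hn => ?_
        rw [Finset.mem_Icc] at hn
        congr 1
        ext c
        simp only [mem_filter, mem_PB]
        constructor
        · rintro ⟨⟨⟨h1, _⟩, h2⟩, h3⟩
          exact ⟨⟨⟨h1, by exact_mod_cast (h3 ▸ hn.2)⟩, h2⟩, h3⟩
        · rintro ⟨⟨⟨h1, _⟩, h2⟩, h3⟩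
          refine ⟨⟨⟨h1, ?_⟩, h2⟩, h3⟩
          rw [← N_le_floor h1, h3]; omega
      · intro c hc
        rw [mem_coe, mem_filter, mem_PB] at hc
        rw [mem_coe, Finset.mem_Icc]
        exact ⟨hc.1.1.one_le_N, by exact_mod_cast hc.1.2⟩
    rw [h2]
    by_cases hk0 : k = 0
    · subst hk0
      rw [PB_eq_empty (by simp)]; simp
    · exact hQ k (Nat.one_le_iff_ne_zero.2 hk0) hk
  · intro k hk _; exact hf k hk
  · exact hf0 _

open Classical in
/-- `#{a primary, a ≠ 1, z-rough, N a ≤ x} ≤ C x / log z` -/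
theorem card_rough_ne_one_le : ∃ C : ℝ, 1 ≤ C ∧ ∀ x z : ℝ, 1 ≤ x → 2 ≤ z →
    (((PB x).filter (fun a => a ≠ 1 ∧ Rough z a)).card : ℝ) ≤ C * x / Real.log z := by
  obtain ⟨C, hC, h⟩ := card_rough_le
  refine ⟨C, hC, ?_⟩
  intro x z hx hz
  have h1 := h x z hx hz
  have h2 : (PB x).filter (fun a => a ≠ 1 ∧ Rough z a) = ((PB x).filter (Rough z)).erase 1 := by
    ext a
    simp only [mem_filter, mem_erase]
    tauto
  have h3 : (1 : O) ∈ (PB x).filter (Rough z) := by
    rw [mem_filter]; exact ⟨one_mem_PB hx, rough_one z⟩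
  rw [h2, card_erase_of_mem h3]
  have h4 : 1 ≤ ((PB x).filter (Rough z)).card := card_pos.2 ⟨1, h3⟩
  rw [Nat.cast_sub h4]
  push_cast
  linarith

open Classical in
/-- `∑_{a ≠ 1, z-rough, N a ≤ x} 1 / N a ≤ C (1 + log x) / log z` -/
theorem sum_inv_rough_le : ∃ C : ℝ, 1 ≤ C ∧ ∀ x z : ℝ, 1 ≤ x → 2 ≤ z →
    ∑ a ∈ (PB x).filter (fun a => a ≠ 1 ∧ Rough z a), (N a : ℝ)⁻¹ ≤
      C * (1 + Real.log x) / Real.log z := by
  obtain ⟨C, hC, h⟩ := card_rough_ne_one_le
  refine ⟨C, hC, ?_⟩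
  intro x z hx hz
  have hlz : 0 < Real.log z := Real.log_pos (by linarith)
  refine (sum_filter_PB_le (f := fun n => (n : ℝ)⁻¹) (C := C / Real.log z) _ x ?_ ?_ ?_).trans ?_
  · intro k hk _
    have := h k z (by exact_mod_cast hk) hz
    calc _ ≤ C * k / Real.log z := this
      _ = _ := by ring
  · intro k hk
    have : (0 : ℝ) < k := by exact_mod_cast hk
    gcongr
    simp
  · intro k _; positivity
  · have h1 := sum_Icc_inv_le hx
    calc C / Real.log z * ∑ n ∈ Finset.Icc 1 ⌊x⌋₊, (n : ℝ)⁻¹ ≤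
          C / Real.log z * (1 + Real.log x) := by gcongr
      _ = _ := by ring

open Classical in
/-- `∑_{p primary prime, w ≤ N p ≤ x} 1 / N p ≤ C (1 + log x) / log w` -/
theorem sum_inv_PP_le : ∃ C : ℝ, 1 ≤ C ∧ ∀ x w : ℝ, 1 ≤ x → 2 ≤ w →
    ∑ p ∈ (PP x).filter (fun p => w ≤ N p), (N p : ℝ)⁻¹ ≤ C * (1 + Real.log x) / Real.log w := by
  obtain ⟨C, hC, h⟩ := sum_inv_rough_le
  refine ⟨C, hC, fun x w hx hw => le_trans ?_ (h x w hx hw)⟩
  apply sum_le_sum_of_subset_of_nonneg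
  · intro p hp
    rw [mem_filter, mem_PP] at hp
    rw [mem_filter, mem_PB]
    refine ⟨hp.1.1, ?_, rough_prime hp.1.2 hp.2⟩
    rintro rfl
    exact hp.1.2.not_isUnit isUnit_one
  · intro _ _ _; positivity

/-- a squarefree `z`-rough element of norm `≤ z^k` has at most `2^k` divisors -/
theorem tau_rough_le {z : ℝ} (hz : 1 < z) {k : ℕ} {a : O} (ha : Primary a) (hs : Squarefree a)
    (h : Rough z a) (hN : (N a : ℝ) ≤ z ^ k) : tau a ≤ 2 ^ k := by
  rw [tau_of_squarefree ha hs]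
  apply Nat.pow_le_pow_right (by norm_num)
  have h1 := card_pdv_rough_le hz ha h
  have h2 : z ^ (pdv a).card ≤ z ^ k := h1.trans hN
  exact (pow_le_pow_iff_right₀ hz).1 h2

end Vale.Agent.P006
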